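import Vale.Agent.P050.O.H300.Defs

set_option linter.all false

/-!
Dense targets, optimal order: shapes by positions, definitions.

The path is `f 0, …, f M`; `K` is the set of chords, as pairs of positions `(i, j)`, `i + 2 ≤ j`.
-/

open MeasureTheory Finset

namespace Vale.Agent.P050.Opt

open Vale.Agent.P050 Vale.Agent.P050.Dense

variable {V : Type*} [Fintype V] [DecidableEq V] {Ω : Type*} [MeasurableSpace Ω]

/-- the edges of the path `f 0, …, f M` and the chords `K` -/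
def PE (f : ℕ → V) (M : ℕ) (K : Finset (ℕ × ℕ)) : Finset (Sym2 V) :=
  (range M).image (fun i => s(f i, f (i + 1))) ∪ K.image (fun c => s(f c.1, f c.2))

/-- `f` is injective on `0, …, M`, the chords join positions of distance at least two -/
structure Pos (f : ℕ → V) (M : ℕ) (K : Finset (ℕ × ℕ)) : Prop where
  inj : ∀ i ≤ M, ∀ j ≤ M, f i = f j → i = j
  ch : ∀ c ∈ K, c.1 + 2 ≤ c.2 ∧ c.2 ≤ M

/-- the bound -/
def Bd (μ : Measure Ω) (U : Sym2 Ω → ℝ) (κ : ℝ) (f : ℕ → V) (M : ℕ) (K : Finset (ℕ × ℕ))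
    (k : ℕ) : Prop :=
  ∀ h : V → Ω → ℝ, (∀ v, BM (h v)) → (∀ v s, |h v s| ≤ 1) →
    |∫ z, wt U (PE f M K) z * ∏ i ∈ range (M + 1), h (f i) (z (f i)) ∂(piM V μ)| ≤
      κ ^ (M + 1 - 2 * k) * ck μ U k

/-- the chords of a shape: `(0, i)` for `B`, `(s, M)` for the positions `s ∈ T` of the fan -/
def KK (M : ℕ) (B : Option ℕ) (T : Finset ℕ) : Finset (ℕ × ℕ) :=
  (match B with
    | none => ∅
    | some i => {(0, i)}) ∪ T.image (fun s => (s, M))

/-- the positions of a shape with a cycle, and the lengths of its cycles -/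
structure Gir (M : ℕ) (B : Option ℕ) (T : Finset ℕ) (k : ℕ) : Prop where
  hk : 2 ≤ k
  B2 : ∀ i, B = some i → 2 ≤ i ∧ i + 1 ≤ M
  T2 : ∀ s ∈ T, s + 2 ≤ M
  /-- the cycle `0, …, i` -/
  g3 : ∀ i, B = some i → 2 * k ≤ i + 1
  /-- the cycle `s, …, M` -/
  g1 : ∀ s ∈ T, s + 2 * k ≤ M + 1
  /-- the cycle `s, …, s', M` -/
  g2 : ∀ s ∈ T, ∀ s' ∈ T, s < s' → s + 2 * k ≤ s' + 2
  /-- the cycle `0, …, s, M, M - 1, …, i` -/
  g4 : ∀ i, B = some i → ∀ s ∈ T, s < i → 2 * k + i ≤ s + M + 2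

/-- the vertex at position `i` of the path `(a, L)` -/
def fp (a : V) (L : List V) (i : ℕ) : V := ((L ++ [a]).reverse[i]?).getD a

/-- the position of the chord at the first vertex -/
def Bp (a : V) (L : List V) : Option (Option V) → Option ℕ
  | some (some c) => some ((L ++ [a]).reverse.idxOf c)
  | _ => none

/-- the positions of the fan -/
def Tp (a : V) (L : List V) (S : Finset V) : Finset ℕ :=
  S.image (fun s => (L ++ [a]).reverse.idxOf s)

end Vale.Agent.P050.Opt
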