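import Vale.Agent.P050.O.H738.Seg
import Vale.Agent.P050.O.H559.PosB
import Vale.Agent.P050.O.H625.Shape

set_option linter.all false

/-!
Dense targets, optimal order: the integrals of the shapes.
-/

open MeasureTheory Finset

namespace Vale.Agent.P050.Opt

open Vale.Agent.P050 Vale.Agent.P050.Dense

variable {V : Type*} [Fintype V] [DecidableEq V] {Ω : Type*} [MeasurableSpace Ω]
variable (H : SimpleGraph V) [DecidableRel H.Adj]
variable (μ : Measure Ω) [IsProbabilityMeasure μ] {U : Sym2 Ω → ℝ} {κ η : ℝ}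

theorem pos_bound (hU : Ker μ U κ η) {f : ℕ → V} {M : ℕ} {B : Option ℕ} {T : Finset ℕ}
    {k : ℕ} (hg : Gir M B T k) (hf : Pos f M (KK M B T)) (hne : B ≠ none ∨ T.Nonempty) :
    Bd μ U κ f M (KK M B T) k :=
  H559.pos_bound_of μ (fun h1 h2 hc hA hC => seg2 μ hU hf hg.hk h1 h2 hc hA hC)
    (fun h1 h2 h3 => cyc0 μ hU hf hg.hk h1 h2 h3) (fun h1 h2 h3 => cycM μ hU hf hg.hk h1 h2 h3)
    (fun {s i} e h1 h2 h3 h4 h5 => by
      rw [e] at hf ⊢
      exact theta μ hU hf hg.hk h1 h2 h3 h4 h5) hg hne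

/-- the shape without marks, if it has a cycle; `hk` = half of `gk_ge` -/
theorem glp_of (hU : Ker μ U κ η) {a : V} {L : List V}
    {B : Option (Option V)} {S : Finset V} {b : Bool} (hs : Shape H a L B S b)
    (hk : 2 ≤ gk a L B S)
    (hc : (∃ c, B = some (some c)) ∨ S.Nonempty) {h : V → Ω → ℝ} (hh : ∀ v, BM (h v))
    (h1 : ∀ v s, |h v s| ≤ 1) :
    |∫ z, pU U a L z * bc U a B z * (∏ x ∈ S, U s(z x, z (hd a L))) *
      ∏ x ∈ vs a L, h x (z x) ∂(piM V μ)| ≤
      κ ^ (L.length + 1 - 2 * gk a L B S) * ck μ U (gk a L B S) := by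
  have hb := pos_bound μ hU (shape_gir_of hs hk) (shape_pos hs) (by
    rcases hc with ⟨c, rfl⟩ | ⟨s, hsS⟩
    · left
      unfold Bp
      simp
    · right
      exact ⟨_, mem_image_of_mem _ hsS⟩) h hh h1
  simp only [← shape_int hs] at hb
  exact hb

end Vale.Agent.P050.Opt
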