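import Vale.Agent.P050.O.H738.NearBlock

set_option linter.all false

/-!
All large powers of a symmetric nonnegative matrix are nearly of rank one on products of classes
of `x ~ y` iff some even power is positive at `(x, y)`.
-/

open Finset Filter

namespace Vale.Agent.P050.Opt.H738NB

variable {X : Type} [Fintype X] [DecidableEq X]

theorem cross_limit (A : Matrix X X ℝ) (hs : ∀ x y, A x y = A y x) (h0 : ∀ x y, 0 ≤ A x y)
    {ε : ℝ} (hε : 0 < ε) :
    ∃ k0 : ℕ, ∀ k ≥ k0, ∀ x a y b, (∃ j, 0 < (A ^ (2 * j)) x a) → (∃ j, 0 < (A ^ (2 * j)) y b) →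
      (A ^ k) x y * (A ^ k) a b ≤ (1 + ε) * ((A ^ k) x b * (A ^ k) a y) := by
  obtain ⟨K, hK⟩ := near A hs h0 hε
  have hB0 : ∀ j x y, 0 ≤ ((A ^ 2) ^ j) x y := fun j x y => by
    rw [← pow_mul]
    exact pow_nonneg' h0 _ _ _
  have hn := fun k => pow_nonneg' h0 k
  have hCQ : ∀ j x z, 0 < ((A ^ 2) ^ j) x z → Cls A x z := fun j x z h => ⟨j, by rwa [pow_mul]⟩
  -- the case of two points in the class of `x`, for even powers
  have key : ∀ j ≥ K, ∀ x a z w, Cls A x a →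
      ((A ^ 2) ^ j) x z * ((A ^ 2) ^ j) a w ≤
        (1 + ε) * (((A ^ 2) ^ j) x w * ((A ^ 2) ^ j) a z) := by
    intro j hj x a z w hxa
    rcases (mul_nonneg (hB0 j x z) (hB0 j a w)).eq_or_lt with h | h
    · rw [← h]
      exact mul_nonneg (by linarith) (mul_nonneg (hB0 _ _ _) (hB0 _ _ _))
    · have hx : 0 < ((A ^ 2) ^ j) x z := pos_of_mul_pos_left h (hB0 _ _ _)
      have ha : 0 < ((A ^ 2) ^ j) a w := pos_of_mul_pos_right h (hB0 _ _ _)
      exact hK j hj x z a w (hCQ _ _ _ hx) hxa (hxa.trans h0 (hCQ _ _ _ ha))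
  refine ⟨2 * K, fun k hk x a y b hxa hyb => ?_⟩
  obtain ⟨j, hj | hj⟩ := Nat.even_or_odd' k
  · rw [hj, pow_mul]
    exact key j (by omega) x a y b hxa
  · have hjK : K ≤ j := by omega
    have e : ∀ u v, (A ^ k) u v = ∑ z, ((A ^ 2) ^ j) u z * A z v := by
      intro u v
      rw [hj, pow_add, pow_one, pow_mul, Matrix.mul_apply]
    rw [e x y, e a b, e x b, e a y, sum_mul_sum, sum_mul_sum, mul_sum]
    rw [sum_comm (f := fun i j_1 => ((A ^ 2) ^ j) x i * A i y * (((A ^ 2) ^ j) a j_1 * A j_1 b))]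
    refine sum_le_sum fun w _ => ?_
    rw [mul_sum]
    refine sum_le_sum fun z _ => ?_
    have h1 := mul_le_mul_of_nonneg_right (key j hjK x a z w hxa)
      (mul_nonneg (h0 z y) (h0 w b))
    calc ((A ^ 2) ^ j) x z * A z y * (((A ^ 2) ^ j) a w * A w b)
        = ((A ^ 2) ^ j) x z * ((A ^ 2) ^ j) a w * (A z y * A w b) := by ring
      _ ≤ _ := h1
      _ = _ := by ring

end Vale.Agent.P050.Opt.H738NB
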