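import Mathlib.Combinatorics.SimpleGraph.Paths
import Mathlib.Combinatorics.SimpleGraph.Walk.Counting
import Mathlib.Combinatorics.SimpleGraph.Connectivity.Connected
import Mathlib.Data.Real.Basic
import Mathlib.Tactic

set_option linter.all false

/-!
Graphs with at most `n` vertices satisfy the walk condition: any two vertices joined by a walk of
positive even length are joined by a walk of length `2 * n`.
-/

namespace Vale.Agent.P050.Opt.H738

variable {X : Type}

/-- the graph of pairs of distinct vertices with a common neighbour -/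
def two (G : SimpleGraph X) : SimpleGraph X :=
  SimpleGraph.fromRel fun a b => ∃ c, G.Adj a c ∧ G.Adj c b

lemma reach_two {G : SimpleGraph X} : ∀ (m : ℕ) (x y : X) (q : G.Walk x y),
    q.length = 2 * m → (two G).Reachable x y := by
  intro m
  induction m with
  | zero =>
    intro x y q hq
    have := SimpleGraph.Walk.eq_of_length_eq_zero (p := q) (by simpa using hq)
    subst this
    exact SimpleGraph.Reachable.refl _
  | succ m ih =>
    intro x y q hq
    cases q with
    | nil => simp at hq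
    | cons h q =>
      rename_i c
      cases q with
      | nil => simp at hq; omega
      | cons h' q =>
        rename_i d
        have := ih _ _ q (by simp at hq; omega)
        by_cases hxd : x = d
        · subst hxd; exact this
        · exact (SimpleGraph.Adj.reachable
            (by rw [two, SimpleGraph.fromRel_adj]; exact ⟨hxd, Or.inl ⟨c, h, h'⟩⟩)).trans this

lemma walk_of_two {G : SimpleGraph X} {x y : X} (p : (two G).Walk x y) :
    ∃ q : G.Walk x y, q.length = 2 * p.length := by
  induction p with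
  | nil => exact ⟨.nil, rfl⟩
  | cons h p ih =>
    obtain ⟨q, hq⟩ := ih
    rw [two, SimpleGraph.fromRel_adj] at h
    obtain ⟨_, ⟨c, h1, h2⟩ | ⟨c, h1, h2⟩⟩ := h
    · exact ⟨.cons h1 (.cons h2 q), by simp [hq]; ring⟩
    · exact ⟨.cons h2.symm (.cons h1.symm q), by simp [hq]; ring⟩

lemma loop_walk {G : SimpleGraph X} {x c : X} (h : G.Adj x c) (k : ℕ) :
    ∃ q : G.Walk x x, q.length = 2 * k := by
  induction k with
  | zero => exact ⟨.nil, rfl⟩
  | succ k ih =>
    obtain ⟨q, hq⟩ := ih
    exact ⟨.cons h (.cons h.symm q), by simp [hq]; ring⟩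

theorem small_walks [Finite X] (G : SimpleGraph X) {n : ℕ} (hn : Nat.card X ≤ n) {x y : X}
    (h : ∃ q : G.Walk x y, Even q.length ∧ q.length ≠ 0) :
    ∃ q : G.Walk x y, q.length = 2 * n := by
  classical
  haveI := Fintype.ofFinite X
  obtain ⟨q, ⟨m, hm⟩, h0⟩ := h
  obtain ⟨c, hc⟩ : ∃ c, G.Adj x c := by
    cases q with
    | nil => simp at h0
    | cons h q => exact ⟨_, h⟩
  obtain ⟨p⟩ := reach_two m x y q (by omega)
  obtain ⟨r, hr⟩ := walk_of_two (p.toPath : (two G).Walk x y)
  have hlt : (p.toPath : (two G).Walk x y).length < Fintype.card X := p.toPath.2.length_lt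
  rw [← Nat.card_eq_fintype_card] at hlt
  obtain ⟨s, hs⟩ := loop_walk hc (n - (p.toPath : (two G).Walk x y).length)
  refine ⟨s.append r, ?_⟩
  rw [SimpleGraph.Walk.length_append, hs, hr]
  omega

theorem small_hyp (n : ℕ) (hn : 1 ≤ n) :
    ∃ δ : ℝ, 0 < δ ∧ ∀ (X : Type) [Finite X] [Nonempty X] (G : SimpleGraph X), Nat.card X ≤ n →
      ∀ x y, (∃ q : G.Walk x y, Even q.length ∧ q.length ≠ 0) →
        δ * (Nat.card X : ℝ) ^ (2 * n - 1) ≤
          Nat.card {q : G.Walk x y // q.length = 2 * n} := by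
  classical
  have hn' : (0 : ℝ) < (n : ℝ) ^ (2 * n - 1) := by positivity
  refine ⟨((n : ℝ) ^ (2 * n - 1))⁻¹, by positivity, ?_⟩
  intro X _ _ G hX x y hq
  haveI := Fintype.ofFinite X
  obtain ⟨q, hq⟩ := small_walks G hX hq
  haveI : Finite {q : G.Walk x y // q.length = 2 * n} := by
    haveI : DecidableRel G.Adj := Classical.decRel _
    infer_instance
  have h1 : 1 ≤ Nat.card {q : G.Walk x y // q.length = 2 * n} :=
    Nat.card_pos_iff.2 ⟨⟨⟨q, hq⟩⟩, inferInstance⟩
  have h2 : (Nat.card X : ℝ) ^ (2 * n - 1) ≤ (n : ℝ) ^ (2 * n - 1) :=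
    pow_le_pow_left₀ (by positivity) (by exact_mod_cast hX) _
  calc ((n : ℝ) ^ (2 * n - 1))⁻¹ * (Nat.card X : ℝ) ^ (2 * n - 1)
      ≤ ((n : ℝ) ^ (2 * n - 1))⁻¹ * (n : ℝ) ^ (2 * n - 1) := by gcongr
    _ = 1 := inv_mul_cancel₀ hn'.ne'
    _ ≤ _ := by exact_mod_cast h1

end Vale.Agent.P050.Opt.H738
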