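import Vale.Agent.P050.O.H111.EntBase
import Vale.Agent.P050.R2.H111.Red

set_option linter.all false

/-!
The base class for weights and kernels with a one-sided bound.
-/

open MeasureTheory Finset

namespace Vale.Agent.P050.Opt

open Vale.Agent.P050 Vale.Agent.P050.Dense Vale.Agent.P050.R2.H111

/-- J7 -/
theorem H738BW.ent_base_wt {V : Type} [Fintype V] [DecidableEq V] {Ω : Type} [Fintype Ω]
    [DecidableEq Ω] (H : SimpleGraph V)
    (hH : H.IsBipartite) {D : ℕ} (hD1 : 1 ≤ D) (hD : ∀ v, (H.neighborSet v).ncard ≤ D)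
    {w : Ω → ℝ} {U : Sym2 Ω → ℝ} (hw : Wt w U) {η : ℝ} (hη0 : 0 ≤ η)
    (hη : 10 ^ 13 * (D:ℝ) * η ≤ 1) (hU : ∀ e, U e ≤ η) : Ent H w U := by
  haveI : Nonempty Ω := by
    by_contra h
    rw [not_nonempty_iff] at h
    have := hw.sum
    simp at this
  letI m : MeasurableSpace Ω := ⊤
  haveI : MeasurableSingletonClass Ω := ⟨fun _ => trivial⟩
  obtain ⟨μ, hμ, hwμ⟩ := exists_measure w hw.pos hw.sum
  have hone : ∀ F : Ω → ℝ, ∫ z, F z ∂μ = ∑ z, w z * F z := integral_one hwμ
  have hDpos : (1:ℝ) ≤ D := by exact_mod_cast hD1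
  have hηD : (D:ℝ) * η ≤ 1 / 10 ^ 13 := by
    rw [le_div_iff₀ (by norm_num)]
    linarith
  have hη1 : η ≤ 1 := by
    have : η ≤ D * η := by nlinarith
    norm_num at hηD
    linarith
  have hnn := hw.nn
  have hzero : ∀ s, ∫ t, two U s t ∂μ = 0 := by
    intro s
    rw [hone]
    exact hw.marg s
  have hker : Ker μ U (2 * η) η := by
    refine ⟨⟨measurable_of_finite _, one_pos, ?_⟩, hzero, by linarith, hη0, ?_, hU⟩
    · intro e
      rw [abs_le]
      have h2 := hnn e
      have h3 := hU e
      constructor <;> linarith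
    · intro s
      have h2 : ∫ t, |two U s t| ∂μ ≤ ∫ t, (2 * η - two U s t) ∂μ := by
        refine integral_mono Integrable.of_finite Integrable.of_finite fun t => ?_
        show |U s(s, t)| ≤ 2 * η - U s(s, t)
        rw [abs_le]
        have h3 := hU s(s, t)
        constructor <;> linarith
      have h3 : ∫ t, (2 * η - two U s t) ∂μ = 2 * η := by
        rw [integral_sub Integrable.of_finite Integrable.of_finite, hzero]
        simp
      linarith
  have hη2 : (1 + η) ^ D ≤ 2 := by
    calc (1 + η) ^ D ≤ (Real.exp η) ^ D := by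
          apply pow_le_pow_left₀ (by positivity)
          linarith [Real.add_one_le_exp η]
      _ = Real.exp (D * η) := by rw [← Real.exp_nat_mul]
      _ ≤ Real.exp (1 / 2) := Real.exp_le_exp.2 (by norm_num at hηD ⊢; linarith)
      _ ≤ 2 := by
          have h3 : Real.exp (1 / 2) ^ 2 ≤ 2 ^ 2 := by
            rw [← Real.exp_nat_mul]
            norm_num
            linarith [Real.exp_one_lt_d9]
          exact le_of_sq_le_sq h3 (by norm_num)
  have hκ : 10 ^ 12 * (D:ℝ) * (2 * η) ≤ 1 := by
    have : 0 ≤ (D:ℝ) * η := by positivity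
    linarith
  have hE := H111.ent_base H hH hD μ (fun s => by rw [hwμ]; exact hw.pos s) hker hη2 hκ
  have e : (fun s => μ.real {s}) = w := funext hwμ
  rwa [e] at hE

end Vale.Agent.P050.Opt
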