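import Vale.Agent.P050.O.H322.Subdiv

set_option linter.all false

/-!
If a subdivision of odd length is bipartite, the graph is bipartite.
-/

namespace Vale.Agent.P050.Opt.H738Odd

open Vale.Agent.P050.Opt

/-- consecutive nodes are adjacent -/
theorem adj_node {V : Type} (F : SimpleGraph V) {ℓ : ℕ} (e : F.edgeSet) {i : ℕ} (hi : i < ℓ) :
    (subdiv ℓ F).Adj (node F ℓ e i) (node F ℓ e (i + 1)) := by
  rw [subdiv, SimpleGraph.fromRel_adj]
  refine ⟨fun h => ?_, Or.inl ⟨e, i, hi, rfl, rfl⟩⟩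
  have := node_inj F (by omega) (by omega) (by omega) h
  omega

theorem bip_of_subdiv_odd {V : Type} {F : SimpleGraph V} {ℓ : ℕ} (hodd : Odd ℓ)
    (h : (subdiv ℓ F).IsBipartite) : F.IsBipartite := by
  obtain ⟨C⟩ := h
  have hℓ : 1 ≤ ℓ := hodd.pos
  have hcol : ∀ (e : F.edgeSet) (i : ℕ), i ≤ ℓ →
      C (node F ℓ e i) = C (node F ℓ e 0) + (if Even i then 0 else 1) := by
    intro e i
    induction i with
    | zero => intro _; simp
    | succ i ih =>
      intro hi
      have h1 := ih (by omega)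
      have h2 := C.valid (adj_node F e (by omega : i < ℓ))
      have h3 : ∀ a b : Fin 2, a ≠ b → b = a + 1 := by decide
      rw [h3 _ _ h2, h1]
      by_cases hev : Even i
      · have : ¬ Even (i + 1) := by rw [Nat.even_add_one]; exact fun h => h hev
        rw [if_pos hev, if_neg this, add_zero]
      · have : Even (i + 1) := by rw [Nat.even_add_one]; exact hev
        rw [if_neg hev, if_pos this, add_assoc]
        rfl
  refine ⟨SimpleGraph.Coloring.mk (fun v => C (Sum.inl v)) fun {u v} huv => ?_⟩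
  set e : F.edgeSet := ⟨s(u, v), huv⟩ with he
  have h1 := hcol e ℓ le_rfl
  rw [node_last F hℓ, node_zero, if_neg (Nat.not_even_iff_odd.2 hodd)] at h1
  have h2 : s((Quot.out e.1).1, (Quot.out e.1).2) = s(u, v) := out_eq F e
  have h3 : ∀ a b : Fin 2, b = a + 1 → a ≠ b := by decide
  have h4 := h3 _ _ h1
  rw [Sym2.eq_iff] at h2
  rcases h2 with ⟨ha, hb⟩ | ⟨ha, hb⟩
  · rw [ha, hb] at h4
    exact h4
  · rw [ha, hb] at h4
    exact h4.symm

end Vale.Agent.P050.Opt.H738Odd
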