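import Vale.Agent.P050.O.H322.Kpow
import Vale.Agent.P050.O.H322.PosRows
import Mathlib.Analysis.MeanInequalitiesPow
import Mathlib.Combinatorics.SimpleGraph.Connectivity.Connected
import Mathlib.Combinatorics.SimpleGraph.Acyclic

set_option linter.all false

/-!
Block diagonal kernels: the inequality for the blocks gives the inequality, for connected graphs.
-/

open Finset

namespace Vale.Agent.P050.Opt.H738BI

open Vale.Agent.P050 Vale.Agent.P050.Dense

/-- superadditivity: `∑ T_i ^ e / n_i ^ (e + r) ≥ T ^ (e + 1) / n ^ (e + r)` -/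
theorem holder {ι : Type} [Fintype ι] (s : Finset ι) (T n : ι → ℝ) (hT : ∀ i, 0 ≤ T i)
    (hn : ∀ i ∈ s, 0 < n i) (hs : s.Nonempty) (e r : ℕ) :
    (∑ i ∈ s, T i) ^ (e + 1) / (∑ i ∈ s, n i) ^ (e + r) ≤
      ∑ i ∈ s, T i ^ (e + 1) / n i ^ (e + r) := by
  set N := ∑ i ∈ s, n i with hN
  have hN0 : 0 < N := sum_pos hn hs
  have hle : ∀ i ∈ s, n i ≤ N := fun i hi => single_le_sum (fun j hj => (hn j hj).le) hi
  have h1 := Real.pow_arith_mean_le_arith_mean_pow s (fun i => n i / N) (fun i => T i / n i)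
    (fun i hi => (div_pos (hn i hi) hN0).le) (by rw [← sum_div]; exact div_self hN0.ne')
    (fun i hi => div_nonneg (hT i) (hn i hi).le) (e + 1)
  have h2 : ∑ i ∈ s, n i / N * (T i / n i) = (∑ i ∈ s, T i) / N := by
    rw [sum_div]
    refine sum_congr rfl fun i hi => ?_
    have := (hn i hi).ne'
    field_simp
  rw [h2] at h1
  have h3 : (∑ i ∈ s, T i) ^ (e + 1) / N ^ (e + r) =
      ((∑ i ∈ s, T i) / N) ^ (e + 1) * N / N ^ r := by
    rw [div_pow, pow_add N e 1, pow_add N e r]
    field_simp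
  rw [h3]
  have h4 : ((∑ i ∈ s, T i) / N) ^ (e + 1) * N / N ^ r ≤
      (∑ i ∈ s, n i / N * (T i / n i) ^ (e + 1)) * N / N ^ r := by
    gcongr
  refine h4.trans ?_
  rw [sum_mul, sum_div]
  refine sum_le_sum fun i hi => ?_
  have hi0 := hn i hi
  have e1 : n i / N * (T i / n i) ^ (e + 1) * N / N ^ r = T i ^ (e + 1) / n i ^ e / N ^ r := by
    rw [div_pow, pow_succ (n i) e]
    field_simp
  rw [e1, pow_add (n i) e r, ← div_div]
  refine div_le_div_of_nonneg_left (div_nonneg (pow_nonneg (hT i) _) (pow_pos hi0 _).le)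
    (pow_pos hi0 _) (pow_le_pow_left₀ hi0.le (hle i hi) r)

section

variable {V X ι : Type} [Fintype V] [DecidableEq V] [Fintype X] [DecidableEq X] [Nonempty X]
  [Fintype ι] [DecidableEq ι]

/-- the kernel on a block -/
def blk (W : X → X → ℝ) (b : X → ι) (i : ι) (x y : {x // b x = i}) : ℝ := W x.1 y.1

omit [Fintype X] [DecidableEq X] [Nonempty X] [Fintype ι] [DecidableEq ι] in
theorem blk_symm {W : X → X → ℝ} (hs : ∀ x y, W x y = W y x) (b : X → ι) (i : ι)
    (x y : {x // b x = i}) : blk W b i x y = blk W b i y x := hs _ _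

theorem const_of_edges {H : SimpleGraph V} (hc : H.Connected) (v0 : V) (f : V → ι)
    (h : ∀ u w, H.Adj u w → f u = f w) (v : V) : f v = f v0 := by
  obtain ⟨p⟩ := hc.preconnected v v0
  induction p with
  | nil => rfl
  | cons hadj _ ih => exact (h _ _ hadj).trans ih

theorem hom_blocks (H : SimpleGraph V) [DecidableRel H.Adj] (hc : H.Connected)
    (W : X → X → ℝ) (hs : ∀ x y, W x y = W y x) (b : X → ι)
    (hb : ∀ x y, b x ≠ b y → W x y = 0) :
    ∑ z : V → X, ∏ e ∈ H.edgeFinset, ev W hs z e =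
      ∑ i, ∑ z : V → {x // b x = i}, ∏ e ∈ H.edgeFinset, ev (blk W b i) (blk_symm hs b i) z e := by
  obtain ⟨v0⟩ := hc.nonempty
  rw [← sum_fiberwise univ (fun z : V → X => b (z v0))]
  refine sum_congr rfl fun i _ => ?_
  symm
  refine Finset.sum_of_injOn (fun z v => (z v).1) ?_ ?_ ?_ ?_
  · intro z _ z' _ h
    funext v
    exact Subtype.ext (congrFun h v)
  · intro z _
    exact Finset.mem_coe.2 (Finset.mem_filter.2 ⟨Finset.mem_univ _, (z v0).2⟩)
  · intro z hz hz'
    rw [Finset.mem_filter] at hz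
    have h1 : ∃ u w, H.Adj u w ∧ b (z u) ≠ b (z w) := by
      by_contra h2
      push Not at h2
      apply hz'
      rw [Set.mem_image]
      refine ⟨fun v => ⟨z v, ?_⟩, Finset.mem_coe.2 (Finset.mem_univ _), rfl⟩
      rw [← hz.2]
      exact const_of_edges hc v0 (fun v => b (z v)) h2 v
    obtain ⟨u, w, huw, hne⟩ := h1
    refine Finset.prod_eq_zero (i := s(u, w)) (by
      rw [SimpleGraph.mem_edgeFinset, SimpleGraph.mem_edgeSet]; exact huw) ?_
    show W (z u) (z w) = 0
    exact hb _ _ hne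
  · intro z _
    refine Finset.prod_congr rfl fun e _ => ?_
    induction e using Sym2.ind with
    | _ u v => rfl

omit [DecidableEq X] [Nonempty X] in
theorem sum_sub (f : X → ℝ) (b : X → ι) : ∑ x, f x = ∑ i, ∑ x : {x // b x = i}, f x.1 := by
  rw [← sum_fiberwise univ b f]
  refine sum_congr rfl fun i _ => ?_
  exact Finset.sum_subtype _ (fun x => by simp) f

/-- block diagonal kernels -/
theorem block_ineq (H : SimpleGraph V) [DecidableRel H.Adj] (hc : H.Connected)
    (W : X → X → ℝ) (hs : ∀ x y, W x y = W y x) (h0 : ∀ x y, 0 ≤ W x y) (b : X → ι)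
    (hb : ∀ x y, b x ≠ b y → W x y = 0)
    (hi : ∀ i, Nonempty {x // b x = i} → pden (blk W b i) ^ H.edgeFinset.card ≤
      tden H (blk W b i) (blk_symm hs b i)) :
    pden W ^ H.edgeFinset.card ≤ tden H W hs := by
  classical
  rcases Nat.eq_zero_or_pos H.edgeFinset.card with hm | hm
  · rw [H322.tden_edgeless H hm, hm, pow_zero]
  obtain ⟨e, he⟩ : ∃ e, H.edgeFinset.card = e + 1 := ⟨H.edgeFinset.card - 1, by omega⟩
  have hv : Fintype.card V ≤ e + 2 := by
    have h1 := hc.card_vert_le_card_edgeSet_add_one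
    rw [Nat.card_eq_fintype_card, Nat.card_eq_fintype_card, ← SimpleGraph.edgeFinset_card] at h1
    omega
  obtain ⟨r, hr⟩ : ∃ r, e + 2 = Fintype.card V + r := ⟨e + 2 - Fintype.card V, by omega⟩
  have hexp : 2 * (e + 1) = Fintype.card V + (e + r) := by omega
  set s : Finset ι := univ.filter fun i => Nonempty {x // b x = i} with hsd
  set T : ι → ℝ := fun i => ∑ x : {x // b x = i}, ∑ y : {x // b x = i}, W x.1 y.1 with hT
  set n : ι → ℝ := fun i => (Fintype.card {x // b x = i} : ℝ) with hn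
  have hT0 : ∀ i, 0 ≤ T i := fun i => sum_nonneg fun x _ => sum_nonneg fun y _ => h0 _ _
  have hn0 : ∀ i ∈ s, 0 < n i := by
    intro i hi'
    haveI := (Finset.mem_filter.1 hi').2
    show (0:ℝ) < (Fintype.card {x // b x = i} : ℝ)
    exact_mod_cast Fintype.card_pos
  have hne : s.Nonempty := by
    obtain ⟨x⟩ := ‹Nonempty X›
    exact ⟨b x, Finset.mem_filter.2 ⟨mem_univ _, ⟨⟨x, rfl⟩⟩⟩⟩
  have hTs : ∑ x, ∑ y, W x y = ∑ i ∈ s, T i := by
    rw [sum_sub (fun x => ∑ y, W x y) b]
    rw [← Finset.sum_subset (Finset.subset_univ s) (f := fun i => ∑ x : {x // b x = i},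
      ∑ y, W x.1 y)]
    · refine sum_congr rfl fun i _ => sum_congr rfl fun x _ => ?_
      rw [sum_sub (fun y => W x.1 y) b]
      rw [Finset.sum_eq_single i]
      · intro j _ hj
        refine sum_eq_zero fun y _ => hb _ _ ?_
        rw [x.2, y.2]
        exact hj.symm
      · intro h
        exact absurd (mem_univ _) h
    · intro i _ hi'
      refine Fintype.sum_eq_zero _ fun x => ?_
      exact absurd (Finset.mem_filter.2 ⟨mem_univ _, ⟨x⟩⟩) hi'
  have hns : (Fintype.card X : ℝ) = ∑ i ∈ s, n i := by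
    have h1 := sum_sub (fun _ : X => (1:ℝ)) b
    simp only [sum_const, card_univ, nsmul_eq_mul, mul_one] at h1
    rw [h1]
    symm
    refine Finset.sum_subset (Finset.subset_univ s) fun i _ hi' => ?_
    have : IsEmpty {x // b x = i} := by
      rw [← not_nonempty_iff]
      exact fun h => hi' (Finset.mem_filter.2 ⟨mem_univ _, h⟩)
    simp [hn]
  have hhom : (∑ i ∈ s, T i) ^ (e + 1) / (∑ i ∈ s, n i) ^ (e + r) ≤
      ∑ z : V → X, ∏ e ∈ H.edgeFinset, ev W hs z e := by
    refine (holder s T n hT0 hn0 hne e r).trans ?_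
    rw [hom_blocks H hc W hs b hb]
    have hnn : ∀ i, 0 ≤ ∑ z : V → {x // b x = i},
        ∏ e ∈ H.edgeFinset, ev (blk W b i) (blk_symm hs b i) z e := by
      intro i
      refine sum_nonneg fun z _ => prod_nonneg fun e _ => ?_
      induction e using Sym2.ind with
      | _ u v => exact h0 _ _
    refine le_trans (sum_le_sum fun i hi' => ?_)
      (Finset.sum_le_univ_sum_of_nonneg (s := s) hnn)
    have hi0 := hn0 i hi'
    have h1 := hi i (Finset.mem_filter.1 hi').2
    rw [he] at h1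
    have h2 : pden (blk W b i) = T i / n i ^ 2 := rfl
    have h3 : tden H (blk W b i) (blk_symm hs b i) = (∑ z : V → {x // b x = i},
        ∏ e ∈ H.edgeFinset, ev (blk W b i) (blk_symm hs b i) z e) / n i ^ Fintype.card V := rfl
    rw [h2, h3, le_div_iff₀ (pow_pos hi0 _), div_pow, ← pow_mul, hexp,
      pow_add (n i) (Fintype.card V) (e + r)] at h1
    refine le_trans (le_of_eq ?_) h1
    have h4 := (pow_pos hi0 (Fintype.card V)).ne'
    field_simp
  have hN0 : (0:ℝ) < Fintype.card X := by exact_mod_cast Fintype.card_pos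
  unfold tden pden
  rw [he, hTs]
  rw [← hns] at hhom
  rw [le_div_iff₀ (pow_pos hN0 _), div_pow, ← pow_mul, hexp,
    pow_add (Fintype.card X : ℝ) (Fintype.card V) (e + r)]
  refine le_trans (le_of_eq ?_) hhom
  have h4 := (pow_pos hN0 (Fintype.card V)).ne'
  field_simp

end

end Vale.Agent.P050.Opt.H738BI
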