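import Vale.Agent.P050.O.H612.SidAll
import Vale.Agent.P050.O.H322.PosRows

set_option linter.all false

/-!
Kernels which are block diagonal, with blocks dominated by a rank one kernel: the rank one
reduction for the whole kernel; the laws of `Ent` for the blocks are hypotheses.
-/

open Finset MeasureTheory

namespace Vale.Agent.P050.Opt.H738Block

open Vale.Agent.P050 Vale.Agent.P050.Dense Vale.Agent.P050.R2.H111

variable {V : Type} [Fintype V] [DecidableEq V]

/-- the statement of `ent_block` -/
def EntBlock (H : SimpleGraph V) : Prop :=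
  ∀ {Ω ι : Type} [Fintype Ω] [DecidableEq Ω] [Fintype ι] [DecidableEq ι]
    {w : Ω → ℝ} {U : Sym2 Ω → ℝ} (hw : Wt w U)
    (b : Ω → ι) (hb : ∀ x y, b x ≠ b y → 1 + U s(x, y) = 0)
    (hE : ∀ i, (∃ x, b x = i) → ∀ (w' : {x // b x = i} → ℝ) (U' : Sym2 {x // b x = i} → ℝ),
      (∀ x, w' x * (∑ y ∈ univ.filter (fun y => b y = i), w y) = w x.1) →
      (∀ e, 1 + U' e =
        (∑ y ∈ univ.filter (fun y => b y = i), w y) * (1 + U (e.map Subtype.val))) →
      Wt w' U' → Ent H w' U'), Ent H w U

/-- the statement of `ent_base_wt` -/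
def EntBaseWt (H : SimpleGraph V) (η : ℝ) : Prop :=
  ∀ {Ω : Type} [Fintype Ω] [DecidableEq Ω] {w : Ω → ℝ} {U : Sym2 Ω → ℝ} (hw : Wt w U)
    (hU : ∀ e, U e ≤ η), Ent H w U

section

variable {X : Type} [Fintype X] [DecidableEq X] [Nonempty X] {ι : Type} [Fintype ι]
  [DecidableEq ι]

/-- positive degrees -/
theorem block_pos (H : SimpleGraph V) [DecidableRel H.Adj] {η : ℝ}
    (hblock : EntBlock H) (hbase : EntBaseWt H η)
    (W : X → X → ℝ) (hs : ∀ x y, W x y = W y x)
    (h0 : ∀ x y, 0 ≤ W x y) (hd : ∀ x, 0 < dgr W x) (b : X → ι)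
    (hb : ∀ x y, b x ≠ b y → W x y = 0)
    (hcl : ∀ x y, b x = b y → W x y * (∑ a ∈ univ.filter (fun a => b a = b x),
      ∑ c ∈ univ.filter (fun c => b c = b x), W a c) ≤
        (1 + η) * ((∑ c, W x c) * ∑ c, W y c)) :
    pden W ^ H.edgeFinset.card ≤ tden H W hs := by
  have hwt := Red3.wt_UU W hs h0 hd
  have hT : 0 < tot W := tot_pos hd
  have hE : Ent H (pi0 W) (UU W hs) := by
    refine hblock hwt b (fun x y hxy => ?_) fun i hi w' U' hw' hU' hwt' => ?_
    · rw [UU_mk]
      unfold R2.H111.KK
      rw [hb x y hxy]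
      simp
    · refine hbase hwt' fun e => ?_
      have h1 := hU' e
      induction e with
      | h x y =>
        rw [Sym2.map_mk, UU_mk] at h1
        have h2 : ∑ a ∈ univ.filter (fun a => b a = b x.1),
            ∑ c ∈ univ.filter (fun c => b c = b x.1), W a c =
            ∑ a ∈ univ.filter (fun a => b a = b x.1), dgr W a := by
          refine sum_congr rfl fun a ha => ?_
          unfold dgr
          rw [sum_filter]
          refine sum_congr rfl fun c _ => ?_
          split_ifs with hc
          · rfl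
          · rw [hb]
            rw [(mem_filter.1 ha).2]
            exact fun h => hc h.symm
        have h3 := hcl x.1 y.1 (by rw [x.2, y.2])
        rw [h2] at h3
        have h4 : ∑ y ∈ univ.filter (fun y => b y = i), pi0 W y =
            (∑ a ∈ univ.filter (fun a => b a = b x.1), dgr W a) / tot W := by
          unfold pi0
          rw [x.2, sum_div]
        rw [h4] at h1
        have h5 : (∑ a ∈ univ.filter (fun a => b a = b x.1), dgr W a) / tot W *
            (1 + (R2.H111.KK W x.1 y.1 - 1)) ≤ 1 + η := by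
          have hdx := hd x.1
          have hdy := hd y.1
          have e1 : (∑ a ∈ univ.filter (fun a => b a = b x.1), dgr W a) / tot W *
            (1 + (R2.H111.KK W x.1 y.1 - 1)) = W x.1 y.1 *
              (∑ a ∈ univ.filter (fun a => b a = b x.1), dgr W a) /
                (dgr W x.1 * dgr W y.1) := by
            unfold R2.H111.KK
            field_simp
            ring
          rw [e1, div_le_iff₀ (mul_pos hdx hdy)]
          exact h3
        linarith
  have h2 := H612.one_le_of_ent hwt hE (rr_pos hd) (Red3.sum_rr_inv W hd)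
    fun v => H.degree v - 1
  have hp0 : 0 ≤ pden W := by
    unfold pden
    exact div_nonneg (Finset.sum_nonneg fun x _ => Finset.sum_nonneg fun y _ => h0 x y)
      (by positivity)
  rw [Red3.redAll W hs hd H]
  calc pden W ^ H.edgeFinset.card = pden W ^ H.edgeFinset.card * 1 := (mul_one _).symm
    _ ≤ _ := mul_le_mul_of_nonneg_left h2 (pow_nonneg hp0 _)

end

/-- J8, with J6 and J7 as hypotheses -/
theorem block_rank1_of {X : Type} [Fintype X] [DecidableEq X] [Nonempty X] {ι : Type} [Fintype ι]
    [DecidableEq ι] (H : SimpleGraph V)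
    [DecidableRel H.Adj] {η : ℝ} (hη0 : 0 ≤ η) (hblock : EntBlock H) (hbase : EntBaseWt H η)
    (W : X → X → ℝ) (hs : ∀ x y, W x y = W y x)
    (h0 : ∀ x y, 0 ≤ W x y) (b : X → ι) (hb : ∀ x y, b x ≠ b y → W x y = 0)
    (hcl : ∀ x y, b x = b y → W x y * (∑ a ∈ univ.filter (fun a => b a = b x),
      ∑ c ∈ univ.filter (fun c => b c = b x), W a c) ≤
        (1 + η) * ((∑ c, W x c) * ∑ c, W y c)) :
    pden W ^ H.edgeFinset.card ≤ tden H W hs := by
  classical
  refine H322.pos_rows H W hs h0 fun hN => ?_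
  have hsub : ∀ (f : X → ℝ), (∀ x, 0 ≤ f x) → ∀ i : ι,
      ∑ a ∈ univ.filter (fun a : H322.Ps W => b a.1 = i), f a.1 ≤
        ∑ a ∈ univ.filter (fun a : X => b a = i), f a := by
    intro f hf i
    rw [← Finset.sum_image (s := univ.filter (fun a : H322.Ps W => b a.1 = i))
      (g := fun a : H322.Ps W => a.1) (f := f) (fun x _ y _ h => Subtype.ext h)]
    refine Finset.sum_le_sum_of_subset_of_nonneg ?_ fun x _ _ => hf x
    intro x hx
    obtain ⟨a, ha, rfl⟩ := Finset.mem_image.1 hx
    exact Finset.mem_filter.2 ⟨Finset.mem_univ _, (Finset.mem_filter.1 ha).2⟩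
  refine block_pos H hblock hbase (H322.rst W) (H322.rst_symm hs) (fun x y => h0 _ _)
    (fun x => ?_) (fun x => b x.1) (fun x y h => hb _ _ h) fun x y hxy => ?_
  · show 0 < ∑ y, H322.rst W x y
    rw [H322.sum_rst_row hs h0]
    exact x.2
  · rw [H322.sum_rst_row hs h0, H322.sum_rst_row hs h0]
    refine le_trans ?_ (hcl x.1 y.1 hxy)
    refine mul_le_mul_of_nonneg_left ?_ (h0 _ _)
    refine le_trans (Finset.sum_le_sum fun a _ => hsub (fun c => W a.1 c) (fun c => h0 _ _) _) ?_
    exact hsub (fun a => ∑ c ∈ univ.filter (fun c => b c = b x.1), W a c)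
      (fun a => Finset.sum_nonneg fun c _ => h0 _ _) _

end Vale.Agent.P050.Opt.H738Block
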