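import Vale.Agent.P050.O.H738.Pos
import Vale.Agent.P050.R2.H738.GL

set_option linter.all false

/-!
Dense targets, optimal order: two clean arcs in a shape.
-/

open MeasureTheory Finset

namespace Vale.Agent.P050.Opt.H738

open Vale.Agent.P050 Vale.Agent.P050.Dense Vale.Agent.P050.Opt

variable {V : Type*} [Fintype V] [DecidableEq V] {Ω : Type*} [MeasurableSpace Ω]
variable (μ : Measure Ω) [IsProbabilityMeasure μ] {U : Sym2 Ω → ℝ} {κ η : ℝ}

/-- the clean pair bound for an edge set `E` on the vertex set `Y` -/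
theorem core_list (hU : Ker μ U κ η) {E : Finset (Sym2 V)} {Y : Finset V}
    {k : ℕ} {a m m' b : V} {p q : List V} (hp : p.length + 1 = k) (hq : q.length + 1 = k)
    (nd : (p ++ q).Nodup) (nd1 : (a :: p ++ [m]).Nodup) (nd2 : (m' :: q ++ [b]).Nodup)
    (hpY : ∀ v ∈ p ++ q, v ∈ Y)
    (haX : a ∈ Y \ (p ++ q).toFinset) (hmX : m ∈ Y \ (p ++ q).toFinset)
    (hmX' : m' ∈ Y \ (p ++ q).toFinset) (hbX : b ∈ Y \ (p ++ q).toFinset)
    {E1 E2 : Finset (Sym2 V)} (hE1 : E1 = (pathEdges a p m).toFinset)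
    (hE2 : E2 = (pathEdges m' q b).toFinset) (s1 : E1 ⊆ E) (s2 : E2 ⊆ E) (dj : Disjoint E1 E2)
    (hF : ∀ e ∈ E \ (E1 ∪ E2), ∀ v ∈ e, v ∈ Y \ (p ++ q).toFinset)
    (hr1 : ∀ x ∈ Y \ (p ++ q).toFinset, ∃ r ∈ ({a, m} : Finset V),
      (gr (E \ (E1 ∪ E2))).Reachable r x)
    (hr2 : ∀ x ∈ Y \ (p ++ q).toFinset, ∃ r ∈ ({m', b} : Finset V),
      (gr (E \ (E1 ∪ E2))).Reachable r x)
    {h : V → Ω → ℝ} (hh : ∀ v, BM (h v)) (hh1 : ∀ v s, |h v s| ≤ 1) :
    |∫ z, wt U E z * ∏ x ∈ Y, h x (z x) ∂(piM V μ)| ≤ κ ^ (Y.card - 2 * k) * ck μ U k := by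
  have ham : a ≠ m := by
    rintro rfl; simp at nd1
  have hmb : m' ≠ b := by
    rintro rfl; simp at nd2
  have key := R2.H738.gl μ hU.good hU.κ0 hU.l1 hp hq nd ham hmb haX hmX hmX' hbX
    (by
      intro v hv hm
      exact (mem_sdiff.mp hm).2 (by simp [hv]))
    (by
      intro v hv hm
      exact (mem_sdiff.mp hm).2 (by simp [hv]))
    hF hr1 hr2 hh hh1
  have hsub : (p ++ q).toFinset ⊆ Y := by
    intro v hv
    exact hpY v (List.mem_toFinset.mp hv)
  have hcard : (Y \ (p ++ q).toFinset).card - 2 = Y.card - 2 * k := by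
    rw [card_sdiff_of_subset hsub, List.toFinset_card_of_nodup nd, List.length_append]
    omega
  rw [hcard] at key
  have e : ∀ z : V → Ω, wt U E z * ∏ x ∈ Y, h x (z x) =
      pathProd U (fun v _ y => h v y) a p m z * (pathProd U (fun v _ y => h v y) m' q b z *
        (wt U (E \ (E1 ∪ E2)) z * ∏ x ∈ Y \ (p ++ q).toFinset, h x (z x))) := by
    intro z
    have h1 : wt U E z = wt U (E \ (E1 ∪ E2)) z * (wt U E1 z * wt U E2 z) := by
      rw [← wt_union dj]
      unfold wt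
      rw [prod_sdiff (union_subset s1 s2)]
    have h2 : ∏ x ∈ Y, h x (z x) = (∏ x ∈ Y \ (p ++ q).toFinset, h x (z x)) *
        ((p.map (fun v => h v (z v))).prod * (q.map (fun v => h v (z v))).prod) := by
      rw [← List.prod_append, ← List.map_append, ← List.prod_toFinset _ nd, prod_sdiff hsub]
    have h3 : wt U E1 z = ((pathEdges a p m).map (fun e => U (e.map z))).prod := by
      rw [hE1]
      unfold wt
      rw [List.prod_toFinset _ (pathEdges_nodup nd1)]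
    have h4 : wt U E2 z = ((pathEdges m' q b).map (fun e => U (e.map z))).prod := by
      rw [hE2]
      unfold wt
      rw [List.prod_toFinset _ (pathEdges_nodup nd2)]
    rw [h1, h2, h3, h4, pathProd_eq, pathProd_eq]
    ring
  simp only [e]
  exact key

/-- the interior of the walk `g 0, …, g k` -/
def iv (g : ℕ → V) (k : ℕ) : List V := (List.range (k - 1)).map (fun i => g (i + 1))

lemma iv_edges_aux (g : ℕ → V) (n t : ℕ) :
    pathEdges (g t) ((List.range n).map (fun i => g (t + 1 + i))) (g (t + n + 1)) =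
      (List.range (n + 1)).map (fun i => s(g (t + i), g (t + i + 1))) := by
  induction n generalizing t with
  | zero => simp [pathEdges]
  | succ n ih =>
    rw [List.range_succ_eq_map (n := n), List.map_cons, pathEdges_cons, List.range_succ_eq_map,
      List.map_cons]
    congr 1
    have := ih (t + 1)
    rw [List.map_map, List.map_map]
    have e1 : ((fun i => g (t + 1 + i)) ∘ Nat.succ) = fun i => g (t + 1 + 1 + i) := by
      funext i
      show g (t + 1 + (i + 1)) = _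
      congr 1; omega
    have e2 : ((fun i => s(g (t + i), g (t + i + 1))) ∘ Nat.succ) =
        fun i => s(g (t + 1 + i), g (t + 1 + i + 1)) := by
      funext i
      show s(g (t + (i + 1)), g (t + (i + 1) + 1)) = _
      rw [show t + (i + 1) = t + 1 + i by omega]
    rw [e1, e2]
    have e3 : t + (n + 1) + 1 = t + 1 + n + 1 := by omega
    rw [e3, ← this]

lemma iv_edges (g : ℕ → V) {k : ℕ} (hk : 1 ≤ k) :
    pathEdges (g 0) (iv g k) (g k) = (List.range k).map (fun i => s(g i, g (i + 1))) := by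
  have := iv_edges_aux g (k - 1) 0
  have e : 0 + (k - 1) + 1 = k := by omega
  have e' : k - 1 + 1 = k := by omega
  rw [e, e'] at this
  simpa [iv, add_comm] using this

lemma mem_iv {g : ℕ → V} {k : ℕ} {v : V} : v ∈ iv g k ↔ ∃ i, 0 < i ∧ i < k ∧ g i = v := by
  unfold iv
  rw [List.mem_map]
  constructor
  · rintro ⟨i, hi, rfl⟩
    rw [List.mem_range] at hi
    exact ⟨i + 1, by omega, by omega, rfl⟩
  · rintro ⟨i, h1, h2, rfl⟩
    exact ⟨i - 1, by rw [List.mem_range]; omega, by congr 1; omega⟩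

/-- the clean pair bound, walks as functions -/
theorem core_fun (hU : Ker μ U κ η) {E : Finset (Sym2 V)} {Y : Finset V}
    (hE : ∀ e ∈ E, ∀ v ∈ e, v ∈ Y) {k : ℕ} (hk : 2 ≤ k) {g1 g2 : ℕ → V}
    (y1 : ∀ i ≤ k, g1 i ∈ Y) (y2 : ∀ i ≤ k, g2 i ∈ Y)
    (i1 : ∀ i ≤ k, ∀ j ≤ k, g1 i = g1 j → i = j) (i2 : ∀ i ≤ k, ∀ j ≤ k, g2 i = g2 j → i = j)
    (d1 : ∀ i, 0 < i → i < k → ∀ j ≤ k, g1 i ≠ g2 j)
    (d2 : ∀ i, 0 < i → i < k → ∀ j ≤ k, g2 i ≠ g1 j)
    (e1 : ∀ i < k, s(g1 i, g1 (i + 1)) ∈ E) (e2 : ∀ i < k, s(g2 i, g2 (i + 1)) ∈ E)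
    (c1 : ∀ i, 0 < i → i < k → ∀ e ∈ E, g1 i ∈ e →
      e = s(g1 (i - 1), g1 i) ∨ e = s(g1 i, g1 (i + 1)))
    (c2 : ∀ i, 0 < i → i < k → ∀ e ∈ E, g2 i ∈ e →
      e = s(g2 (i - 1), g2 i) ∨ e = s(g2 i, g2 (i + 1)))
    {F : Finset (Sym2 V)}
    (hF : F = E.filter (fun e => (∀ i < k, e ≠ s(g1 i, g1 (i + 1))) ∧
      ∀ i < k, e ≠ s(g2 i, g2 (i + 1))))
    (r1 : ∀ x ∈ Y, (∀ i, 0 < i → i < k → x ≠ g1 i ∧ x ≠ g2 i) →
      (gr F).Reachable (g1 0) x ∨ (gr F).Reachable (g1 k) x)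
    (r2 : ∀ x ∈ Y, (∀ i, 0 < i → i < k → x ≠ g1 i ∧ x ≠ g2 i) →
      (gr F).Reachable (g2 0) x ∨ (gr F).Reachable (g2 k) x)
    {h : V → Ω → ℝ} (hh : ∀ v, BM (h v)) (hh1 : ∀ v s, |h v s| ≤ 1) :
    |∫ z, wt U E z * ∏ x ∈ Y, h x (z x) ∂(piM V μ)| ≤ κ ^ (Y.card - 2 * k) * ck μ U k := by
  have ivnd : ∀ g : ℕ → V, (∀ i ≤ k, ∀ j ≤ k, g i = g j → i = j) → (iv g k).Nodup := by
    intro g hg
    unfold iv
    refine List.Nodup.map_on ?_ List.nodup_range
    intro x hx y hy hxy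
    rw [List.mem_range] at hx hy
    have := hg (x + 1) (by omega) (y + 1) (by omega) hxy
    omega
  have nda : ∀ g : ℕ → V, (∀ i ≤ k, ∀ j ≤ k, g i = g j → i = j) →
      (g 0 :: iv g k ++ [g k]).Nodup := by
    intro g hg
    simp only [List.cons_append, List.nodup_cons, List.nodup_append, List.mem_append,
      List.mem_singleton, List.nodup_singleton, not_or]
    refine ⟨⟨?_, ?_⟩, ivnd g hg, ⟨List.not_mem_nil, List.nodup_nil⟩, ?_⟩
    · intro hm
      obtain ⟨i, h1, h2, h3⟩ := mem_iv.mp hm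
      have := hg i h2.le 0 (by omega) h3
      omega
    · intro hm
      have := hg 0 (by omega) k le_rfl hm
      omega
    · intro u hu v hv huv
      obtain ⟨i, h1, h2, h3⟩ := mem_iv.mp hu
      have := hg i h2.le k le_rfl (by rw [h3, huv, hv])
      omega
  have hE1 : (pathEdges (g1 0) (iv g1 k) (g1 k)).toFinset =
      (range k).image (fun i => s(g1 i, g1 (i + 1))) := by
    rw [iv_edges g1 (by omega)]
    ext e
    simp
  have hE2 : (pathEdges (g2 0) (iv g2 k) (g2 k)).toFinset =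
      (range k).image (fun i => s(g2 i, g2 (i + 1))) := by
    rw [iv_edges g2 (by omega)]
    ext e
    simp
  have hFE : E \ ((pathEdges (g1 0) (iv g1 k) (g1 k)).toFinset ∪
      (pathEdges (g2 0) (iv g2 k) (g2 k)).toFinset) = F := by
    rw [hE1, hE2, hF]
    ext e
    simp only [mem_sdiff, mem_union, mem_image, mem_range, mem_filter, not_or, not_exists,
      not_and]
    constructor
    · rintro ⟨h1, h2, h3⟩
      exact ⟨h1, fun i hi he => h2 i hi he.symm, fun i hi he => h3 i hi he.symm⟩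
    · rintro ⟨h1, h2, h3⟩
      exact ⟨h1, fun i hi he => h2 i hi he.symm, fun i hi he => h3 i hi he.symm⟩
  have hX : ∀ x, x ∈ Y \ (iv g1 k ++ iv g2 k).toFinset ↔
      x ∈ Y ∧ ∀ i, 0 < i → i < k → x ≠ g1 i ∧ x ≠ g2 i := by
    intro x
    rw [mem_sdiff, List.mem_toFinset, List.mem_append, mem_iv, mem_iv]
    constructor
    · rintro ⟨h1, h2⟩
      refine ⟨h1, fun i hi hi' => ⟨fun he => h2 (Or.inl ⟨i, hi, hi', he.symm⟩),
        fun he => h2 (Or.inr ⟨i, hi, hi', he.symm⟩)⟩⟩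
    · rintro ⟨h1, h2⟩
      refine ⟨h1, ?_⟩
      rintro (⟨i, hi, hi', he⟩ | ⟨i, hi, hi', he⟩)
      · exact (h2 i hi hi').1 he.symm
      · exact (h2 i hi hi').2 he.symm
  have hend : ∀ j, (j = 0 ∨ j = k) → g1 j ∈ Y \ (iv g1 k ++ iv g2 k).toFinset ∧
      g2 j ∈ Y \ (iv g1 k ++ iv g2 k).toFinset := by
    intro j hj
    have hjk : j ≤ k := by omega
    rw [hX, hX]
    refine ⟨⟨y1 j hjk, fun i hi hi' => ⟨fun he => ?_, fun he => ?_⟩⟩,
      ⟨y2 j hjk, fun i hi hi' => ⟨fun he => ?_, fun he => ?_⟩⟩⟩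
    · have := i1 j hjk i hi'.le he
      omega
    · exact d2 i hi hi' j hjk he.symm
    · exact d1 i hi hi' j hjk he.symm
    · have := i2 j hjk i hi'.le he
      omega
  refine core_list μ hU (p := iv g1 k) (q := iv g2 k) (a := g1 0) (m := g1 k) (m' := g2 0)
    (b := g2 k) (by simp [iv]; omega) (by simp [iv]; omega) ?_ (nda g1 i1) (nda g2 i2) ?_
    (hend 0 (Or.inl rfl)).1 (hend k (Or.inr rfl)).1 (hend 0 (Or.inl rfl)).2
    (hend k (Or.inr rfl)).2 rfl rfl ?_ ?_ ?_ ?_ ?_ ?_ hh hh1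
  · rw [List.nodup_append]
    refine ⟨ivnd g1 i1, ivnd g2 i2, ?_⟩
    intro u hu v hv huv
    obtain ⟨i, h1, h2, h3⟩ := mem_iv.mp hu
    obtain ⟨j, h4, h5, h6⟩ := mem_iv.mp hv
    exact d1 i h1 h2 j h5.le (by rw [h3, h6, huv])
  · intro v hv
    rcases List.mem_append.mp hv with hv | hv
    · obtain ⟨i, h1, h2, h3⟩ := mem_iv.mp hv
      exact h3 ▸ y1 i h2.le
    · obtain ⟨i, h1, h2, h3⟩ := mem_iv.mp hv
      exact h3 ▸ y2 i h2.le
  · rw [hE1]
    intro e he
    obtain ⟨i, hi, rfl⟩ := mem_image.mp he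
    exact e1 i (mem_range.mp hi)
  · rw [hE2]
    intro e he
    obtain ⟨i, hi, rfl⟩ := mem_image.mp he
    exact e2 i (mem_range.mp hi)
  · rw [hE1, hE2, disjoint_left]
    intro e he he'
    obtain ⟨i, hi, rfl⟩ := mem_image.mp he
    obtain ⟨j, hj, hij⟩ := mem_image.mp he'
    rw [mem_range] at hi hj
    have hin : ∃ i', 0 < i' ∧ i' < k ∧ g1 i' ∈ s(g1 i, g1 (i + 1)) := by
      by_cases h0 : i = 0
      · subst h0
        exact ⟨1, by omega, by omega, Sym2.mem_mk_right _ _⟩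
      · exact ⟨i, by omega, hi, Sym2.mem_mk_left _ _⟩
    obtain ⟨i', h1, h2, h3⟩ := hin
    rw [← hij] at h3
    rcases Sym2.mem_iff.mp h3 with h3 | h3
    · exact d1 i' h1 h2 j (by omega) h3
    · exact d1 i' h1 h2 (j + 1) (by omega) h3
  · rw [hFE, hF]
    intro e he v hv
    obtain ⟨h1, h2, h3⟩ := mem_filter.mp he
    rw [hX]
    refine ⟨hE e h1 v hv, fun i hi hi' => ⟨?_, ?_⟩⟩
    · rintro rfl
      rcases c1 i hi hi' e h1 hv with h4 | h4
      · apply h2 (i - 1) (by omega)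
        rw [h4]
        congr 3; omega
      · exact h2 i hi' h4
    · rintro rfl
      rcases c2 i hi hi' e h1 hv with h4 | h4
      · apply h3 (i - 1) (by omega)
        rw [h4]
        congr 3; omega
      · exact h3 i hi' h4
  · rw [hFE]
    intro x hx
    rw [hX] at hx
    rcases r1 x hx.1 hx.2 with h | h
    · exact ⟨_, mem_insert_self _ _, h⟩
    · exact ⟨_, mem_insert_of_mem (mem_singleton_self _), h⟩
  · rw [hFE]
    intro x hx
    rw [hX] at hx
    rcases r2 x hx.1 hx.2 with h | h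
    · exact ⟨_, mem_insert_self _ _, h⟩
    · exact ⟨_, mem_insert_of_mem (mem_singleton_self _), h⟩

end Vale.Agent.P050.Opt.H738
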