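import Vale.Agent.P050.O.H738.Core

set_option linter.all false

/-!
Dense targets, optimal order: two clean arcs, by positions.
-/

open MeasureTheory Finset

namespace Vale.Agent.P050.Opt.H738

open Vale.Agent.P050 Vale.Agent.P050.Dense Vale.Agent.P050.Opt

/-- adjacent positions -/
def Ed (M : ℕ) (K : Finset (ℕ × ℕ)) (x y : ℕ) : Prop :=
  (x + 1 = y ∧ y ≤ M) ∨ (y + 1 = x ∧ x ≤ M) ∨ (x, y) ∈ K ∨ (y, x) ∈ K

/-- adjacent by an edge which is not in one of the two walks -/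
def RE (M : ℕ) (K : Finset (ℕ × ℕ)) (k : ℕ) (P1 P2 : ℕ → ℕ) (x y : ℕ) : Prop :=
  Ed M K x y ∧ (∀ i < k, ¬ (x = P1 i ∧ y = P1 (i + 1)) ∧ ¬ (y = P1 i ∧ x = P1 (i + 1))) ∧
    ∀ i < k, ¬ (x = P2 i ∧ y = P2 (i + 1)) ∧ ¬ (y = P2 i ∧ x = P2 (i + 1))

lemma Ed.symm {M : ℕ} {K : Finset (ℕ × ℕ)} {x y : ℕ} (h : Ed M K x y) : Ed M K y x := by
  unfold Ed at *; tauto

lemma RE.symm {M : ℕ} {K : Finset (ℕ × ℕ)} {k : ℕ} {P1 P2 : ℕ → ℕ} {x y : ℕ}
    (h : RE M K k P1 P2 x y) : RE M K k P1 P2 y x := by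
  obtain ⟨h1, h2, h3⟩ := h
  exact ⟨h1.symm, fun i hi => ⟨(h2 i hi).2, (h2 i hi).1⟩, fun i hi => ⟨(h3 i hi).2, (h3 i hi).1⟩⟩

/-- reachable -/
abbrev RT (M : ℕ) (K : Finset (ℕ × ℕ)) (k : ℕ) (P1 P2 : ℕ → ℕ) : ℕ → ℕ → Prop :=
  Relation.ReflTransGen (RE M K k P1 P2)

lemma RT.symm {M : ℕ} {K : Finset (ℕ × ℕ)} {k : ℕ} {P1 P2 : ℕ → ℕ} {x y : ℕ}
    (h : RT M K k P1 P2 x y) : RT M K k P1 P2 y x := by
  induction h with
  | refl => exact Relation.ReflTransGen.refl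
  | tail _ h ih => exact Relation.ReflTransGen.head h.symm ih

lemma RT.seg {M : ℕ} {K : Finset (ℕ × ℕ)} {k : ℕ} {P1 P2 : ℕ → ℕ} {x y : ℕ} (hxy : x ≤ y)
    (h : ∀ i, x ≤ i → i < y → RE M K k P1 P2 i (i + 1)) : RT M K k P1 P2 x y := by
  induction y, hxy using Nat.le_induction with
  | base => exact Relation.ReflTransGen.refl
  | succ y hy ih =>
    exact Relation.ReflTransGen.tail (ih fun i h1 h2 => h i h1 (by omega)) (h y hy (by omega))

variable {V : Type*} [Fintype V] [DecidableEq V] {Ω : Type*} [MeasurableSpace Ω]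
variable (μ : Measure Ω) [IsProbabilityMeasure μ] {U : Sym2 Ω → ℝ} {κ η : ℝ}

lemma ed_le {f : ℕ → V} {M : ℕ} {K : Finset (ℕ × ℕ)} (hf : Pos f M K) {x y : ℕ}
    (h : Ed M K x y) : x ≤ M ∧ y ≤ M ∧ x ≠ y := by
  rcases h with h | h | h | h
  · omega
  · omega
  · have := hf.ch _ h
    simp only at this
    omega
  · have := hf.ch _ h
    simp only at this
    omega

lemma mem_PE {f : ℕ → V} {M : ℕ} {K : Finset (ℕ × ℕ)} (hf : Pos f M K) {e : Sym2 V} :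
    e ∈ PE f M K ↔ ∃ x y, Ed M K x y ∧ e = s(f x, f y) := by
  unfold PE
  rw [mem_union, mem_image, mem_image]
  constructor
  · rintro (⟨i, hi, rfl⟩ | ⟨c, hc, rfl⟩)
    · rw [mem_range] at hi
      exact ⟨i, i + 1, Or.inl ⟨rfl, hi⟩, rfl⟩
    · exact ⟨c.1, c.2, Or.inr (Or.inr (Or.inl hc)), rfl⟩
  · rintro ⟨x, y, h | h | h | h, rfl⟩
    · exact Or.inl ⟨x, by rw [mem_range]; omega, by rw [h.1]⟩
    · exact Or.inl ⟨y, by rw [mem_range]; omega, by rw [h.1]; exact Sym2.eq_swap⟩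
    · exact Or.inr ⟨_, h, rfl⟩
    · exact Or.inr ⟨_, h, Sym2.eq_swap⟩

/-- the clean pair bound by positions -/
theorem core_pos (hU : Ker μ U κ η) {f : ℕ → V} {M : ℕ} {K : Finset (ℕ × ℕ)} (hf : Pos f M K)
    {k : ℕ} (hk : 2 ≤ k) {P1 P2 : ℕ → ℕ}
    (b1 : ∀ i ≤ k, P1 i ≤ M) (b2 : ∀ i ≤ k, P2 i ≤ M)
    (i1 : ∀ i ≤ k, ∀ j ≤ k, P1 i = P1 j → i = j) (i2 : ∀ i ≤ k, ∀ j ≤ k, P2 i = P2 j → i = j)
    (d1 : ∀ i, 0 < i → i < k → ∀ j ≤ k, P1 i ≠ P2 j)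
    (d2 : ∀ i, 0 < i → i < k → ∀ j ≤ k, P2 i ≠ P1 j)
    (e1 : ∀ i < k, Ed M K (P1 i) (P1 (i + 1))) (e2 : ∀ i < k, Ed M K (P2 i) (P2 (i + 1)))
    (c1 : ∀ i, 0 < i → i < k → ∀ y, Ed M K (P1 i) y → y = P1 (i - 1) ∨ y = P1 (i + 1))
    (c2 : ∀ i, 0 < i → i < k → ∀ y, Ed M K (P2 i) y → y = P2 (i - 1) ∨ y = P2 (i + 1))
    (r1 : ∀ x ≤ M, (∀ i, 0 < i → i < k → x ≠ P1 i ∧ x ≠ P2 i) →
      RT M K k P1 P2 (P1 0) x ∨ RT M K k P1 P2 (P1 k) x)
    (r2 : ∀ x ≤ M, (∀ i, 0 < i → i < k → x ≠ P1 i ∧ x ≠ P2 i) →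
      RT M K k P1 P2 (P2 0) x ∨ RT M K k P1 P2 (P2 k) x) :
    Bd μ U κ f M K k := by
  intro h hh hh1
  have hY : ∀ z : V → Ω, ∏ x ∈ (range (M + 1)).image f, h x (z x) =
      ∏ i ∈ range (M + 1), h (f i) (z (f i)) := by
    intro z
    rw [prod_image]
    intro x hx y hy hxy
    exact hf.inj x (by simpa using hx) y (by simpa using hy) hxy
  have hcard : ((range (M + 1)).image f).card = M + 1 := by
    rw [card_image_of_injOn, card_range]
    intro x hx y hy hxy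
    exact hf.inj x (by simpa using hx) y (by simpa using hy) hxy
  have hmemY : ∀ x ≤ M, f x ∈ (range (M + 1)).image f := by
    intro x hx
    exact mem_image_of_mem _ (by rw [mem_range]; omega)
  have clean : ∀ P : ℕ → ℕ, (∀ i ≤ k, P i ≤ M) →
      (∀ i, 0 < i → i < k → ∀ y, Ed M K (P i) y → y = P (i - 1) ∨ y = P (i + 1)) →
      ∀ i, 0 < i → i < k → ∀ e ∈ PE f M K, f (P i) ∈ e →
        e = s(f (P (i - 1)), f (P i)) ∨ e = s(f (P i), f (P (i + 1))) := by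
    intro P hb hc i hi hi' e he hm
    obtain ⟨x, y, hxy, rfl⟩ := (mem_PE hf).mp he
    have hl := ed_le hf hxy
    rcases Sym2.mem_iff.mp hm with hm | hm
    · have hx := hf.inj _ (hb i hi'.le) _ hl.1 hm
      subst hx
      rcases hc i hi hi' y hxy with rfl | rfl
      · exact Or.inl Sym2.eq_swap
      · exact Or.inr rfl
    · have hx := hf.inj _ (hb i hi'.le) _ hl.2.1 hm
      subst hx
      rcases hc i hi hi' x hxy.symm with rfl | rfl
      · exact Or.inl rfl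
      · exact Or.inr Sym2.eq_swap
  set F : Finset (Sym2 V) := (PE f M K).filter (fun e => (∀ i < k, e ≠ s(f (P1 i), f (P1 (i + 1)))) ∧
      ∀ i < k, e ≠ s(f (P2 i), f (P2 (i + 1)))) with hF
  have notw : ∀ (P : ℕ → ℕ), (∀ i ≤ k, P i ≤ M) → ∀ x y, x ≤ M → y ≤ M →
      (∀ i < k, ¬ (x = P i ∧ y = P (i + 1)) ∧ ¬ (y = P i ∧ x = P (i + 1))) →
      ∀ i < k, s(f x, f y) ≠ s(f (P i), f (P (i + 1))) := by
    intro P hb x y hx hy hn i hi he
    rw [Sym2.eq_iff] at he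
    rcases he with ⟨h1, h2⟩ | ⟨h1, h2⟩
    · exact (hn i hi).1 ⟨hf.inj _ hx _ (hb i hi.le) h1, hf.inj _ hy _ (hb (i + 1) hi) h2⟩
    · exact (hn i hi).2 ⟨hf.inj _ hy _ (hb i hi.le) h2, hf.inj _ hx _ (hb (i + 1) hi) h1⟩
  have hreach : ∀ x y, RT M K k P1 P2 x y → (gr F).Reachable (f x) (f y) := by
    intro x y hxy
    induction hxy with
    | refl => exact SimpleGraph.Reachable.refl _
    | tail _ h ih =>
      refine ih.trans (SimpleGraph.Adj.reachable ?_)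
      obtain ⟨g1, g2, g3⟩ := h
      have hl := ed_le hf g1
      rw [SimpleGraph.fromEdgeSet_adj]
      refine ⟨?_, fun e => hl.2.2 (hf.inj _ hl.1 _ hl.2.1 e)⟩
      rw [Finset.mem_coe, hF, mem_filter]
      exact ⟨(mem_PE hf).mpr ⟨_, _, g1, rfl⟩, notw P1 b1 _ _ hl.1 hl.2.1 g2,
        notw P2 b2 _ _ hl.1 hl.2.1 g3⟩
  have key := core_fun μ hU (E := PE f M K) (Y := (range (M + 1)).image f)
    (by
      intro e he v hv
      obtain ⟨x, y, hxy, rfl⟩ := (mem_PE hf).mp he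
      have hl := ed_le hf hxy
      rcases Sym2.mem_iff.mp hv with rfl | rfl
      · exact hmemY x hl.1
      · exact hmemY y hl.2.1)
    hk (g1 := fun i => f (P1 i)) (g2 := fun i => f (P2 i))
    (fun i hi => hmemY _ (b1 i hi)) (fun i hi => hmemY _ (b2 i hi))
    (fun i hi j hj he => i1 i hi j hj (hf.inj _ (b1 i hi) _ (b1 j hj) he))
    (fun i hi j hj he => i2 i hi j hj (hf.inj _ (b2 i hi) _ (b2 j hj) he))
    (fun i hi hi' j hj he => d1 i hi hi' j hj (hf.inj _ (b1 i hi'.le) _ (b2 j hj) he))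
    (fun i hi hi' j hj he => d2 i hi hi' j hj (hf.inj _ (b2 i hi'.le) _ (b1 j hj) he))
    (fun i hi => (mem_PE hf).mpr ⟨_, _, e1 i hi, rfl⟩)
    (fun i hi => (mem_PE hf).mpr ⟨_, _, e2 i hi, rfl⟩)
    (clean P1 b1 c1) (clean P2 b2 c2) (F := F) hF
    (by
      intro x hx hn
      obtain ⟨y, hy, rfl⟩ := mem_image.mp hx
      rw [mem_range] at hy
      rcases r1 y (by omega) (fun i hi hi' => ⟨fun e => (hn i hi hi').1 (by rw [e]),
        fun e => (hn i hi hi').2 (by rw [e])⟩) with h | h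
      · exact Or.inl (hreach _ _ h)
      · exact Or.inr (hreach _ _ h))
    (by
      intro x hx hn
      obtain ⟨y, hy, rfl⟩ := mem_image.mp hx
      rw [mem_range] at hy
      rcases r2 y (by omega) (fun i hi hi' => ⟨fun e => (hn i hi hi').1 (by rw [e]),
        fun e => (hn i hi hi').2 (by rw [e])⟩) with h | h
      · exact Or.inl (hreach _ _ h)
      · exact Or.inr (hreach _ _ h))
    hh hh1
  simp only [hY, hcard] at key
  exact key

end Vale.Agent.P050.Opt.H738
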