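import Vale.Agent.P050.O.H234.CrossUnif
import Vale.Agent.P050.O.H774.UnifAll
import Vale.Agent.P050.O.H738.Small
import Mathlib.Analysis.SpecialFunctions.Log.Basic
import Mathlib.Analysis.Complex.ExponentialBounds

set_option linter.all false

/-!
Long subdivisions: the length is at most a constant times the logarithm of the degree.
-/

open Finset

namespace Vale.Agent.P050.Opt.H738.Lg

open Vale.Agent.P050 Vale.Agent.P050.Opt Vale.Agent.P050.Opt.H234 Vale.Agent.P050.Opt.H111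

lemma half_le_log {ε : ℝ} (hε : 0 < ε) (hε2 : ε ≤ 1 / 2) : 1 / 2 ≤ Real.log (1 / ε) := by
  have h1 : Real.log 2 ≤ Real.log (1 / ε) := by
    refine Real.log_le_log (by norm_num) ?_
    rw [le_div_iff₀ hε]
    linarith
  have := Real.log_two_gt_d9
  linarith

/-- the columns become proportional, uniform version -/
lemma cmp_log (N : ℕ) {K : ℝ} (hK : 1 ≤ K) :
    ∃ C : ℝ, 0 ≤ C ∧ ∀ ε : ℝ, 0 < ε → ε ≤ 1 / 2 → ∃ k0 : ℕ, (k0 : ℝ) ≤ C * Real.log (1 / ε) ∧
      ∀ (X : Type) [Fintype X] [DecidableEq X] (B : Matrix X X ℝ) (p : X → Prop)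
      (h0 : ∀ x y, 0 ≤ B x y) (hC : ∀ a z, p a → ¬ p z → B a z = 0) (m : ℝ) (hm : 0 < m)
      (hQ : ∀ a z, p a → p z → m ≤ (B ^ N) a z ∧ (B ^ N) a z ≤ K * m) (y b : X) (hy : p y)
      (hb : p b), ∀ k ≥ k0, ∀ x a, p x → p a →
      (B ^ k) x y * (B ^ k) a b ≤ (1 + ε) * ((B ^ k) x b * (B ^ k) a y) := by
  have hK0 : 0 < K := by linarith
  have hKi : 1 / K ≤ K := by
    have h1 : 1 / K ≤ 1 := by rw [div_le_one hK0]; exact hK
    linarith
  set r : ℝ := 1 - 1 / (2 * K ^ 2) with hr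
  have hr0 : 0 ≤ r := by
    rw [hr, sub_nonneg, div_le_one (by positivity)]
    nlinarith
  have hr1 : r < 1 := by
    rw [hr]
    have : 0 < 1 / (2 * K ^ 2) := by positivity
    linarith
  have hd0 : 0 ≤ K - 1 / K := sub_nonneg.2 hKi
  set c : ℝ := 1 / K / (K - 1 / K + 1) with hc
  have hc0 : 0 < c := by positivity
  have hc1 : c ≤ 1 := by
    rw [hc, div_le_one (by positivity)]
    have h1 : 1 / K ≤ 1 := by rw [div_le_one hK0]; exact hK
    linarith
  have hlc : 0 ≤ Real.log (1 / c) := Real.log_nonneg (by rw [le_div_iff₀ hc0]; linarith)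
  refine ⟨N * (4 + 2 * K ^ 2 + 4 * K ^ 2 * Real.log (1 / c)), by positivity, ?_⟩
  intro ε hε hε2
  have hlε : 1 / 2 ≤ Real.log (1 / ε) := by
    have h1 : Real.log 2 ≤ Real.log (1 / ε) := by
      refine Real.log_le_log (by norm_num) ?_
      rw [le_div_iff₀ hε]
      linarith
    have := Real.log_two_gt_d9
    linarith
  have hprod : Real.log (1 / (ε * c)) = Real.log (1 / ε) + Real.log (1 / c) := by
    rw [← Real.log_mul (by positivity) (by positivity)]
    congr 1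
    field_simp
  set T : ℝ := 2 * K ^ 2 * Real.log (1 / (ε * c)) with hT
  have hT0 : 0 ≤ T := by
    rw [hT, hprod]
    have : 0 ≤ Real.log (1 / ε) := by linarith
    positivity
  set n : ℕ := ⌊T⌋₊ + 1 with hndef
  have hnT : T < n := by rw [hndef]; push_cast; exact Nat.lt_floor_add_one T
  have hnT' : (n : ℝ) ≤ T + 1 := by
    rw [hndef]; push_cast; linarith [Nat.floor_le hT0]
  have hn : r ^ n < ε * (1 / K) / (K - 1 / K + 1) := by
    have e0 : ε * (1 / K) / (K - 1 / K + 1) = ε * c := by rw [hc]; ring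
    have e1 : r ≤ Real.exp (-(1 / (2 * K ^ 2))) := by
      have := Real.add_one_le_exp (-(1 / (2 * K ^ 2)))
      rw [hr]; linarith
    have e2 : r ^ n ≤ Real.exp (-(1 / (2 * K ^ 2))) ^ n := pow_le_pow_left₀ hr0 e1 n
    rw [← Real.exp_nat_mul] at e2
    have e3 : (n : ℝ) * (-(1 / (2 * K ^ 2))) < -Real.log (1 / (ε * c)) := by
      have : Real.log (1 / (ε * c)) = T * (1 / (2 * K ^ 2)) := by rw [hT]; field_simp
      rw [this]
      have h5 : 0 < 1 / (2 * K ^ 2) := by positivity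
      nlinarith
    have e4 : Real.exp (-Real.log (1 / (ε * c))) = ε * c := by
      rw [Real.exp_neg, Real.exp_log (by positivity)]
      field_simp
    rw [e0]
    calc r ^ n ≤ _ := e2
      _ < Real.exp (-Real.log (1 / (ε * c))) := Real.exp_lt_exp.2 e3
      _ = ε * c := e4
  refine ⟨N + n * N, ?_, ?_⟩
  · push_cast
    have h1 : (N : ℝ) + n * N ≤ N * (2 + T) := by
      have : (0:ℝ) ≤ N := Nat.cast_nonneg N
      nlinarith
    refine h1.trans ?_
    rw [mul_assoc]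
    refine mul_le_mul_of_nonneg_left ?_ (Nat.cast_nonneg N)
    rw [hT, hprod]
    have h2 : 0 ≤ K ^ 2 * Real.log (1 / c) := by positivity
    nlinarith
  intro X _ _ B p h0 hC m hm hQ y b hy hb
  have hstart : Cmp B p y b N (1 / K) K := by
    intro a ha
    obtain ⟨h1, h2⟩ := hQ a b ha hb
    obtain ⟨h3, h4⟩ := hQ a y ha hy
    constructor
    · calc 1 / K * (B ^ N) a b ≤ 1 / K * (K * m) := mul_le_mul_of_nonneg_left h2 (by positivity)
        _ = m := by field_simp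
        _ ≤ _ := h3
    · calc (B ^ N) a y ≤ K * m := h4
        _ ≤ _ := mul_le_mul_of_nonneg_left h1 hK0.le
  have hiter : ∀ n : ℕ, ∃ lo hi : ℝ, 1 / K ≤ lo ∧ lo ≤ hi ∧
      hi - lo ≤ r ^ n * (K - 1 / K) ∧ Cmp B p y b (N + n * N) lo hi := by
    intro n
    induction n with
    | zero => exact ⟨1 / K, K, le_rfl, hKi, by rw [pow_zero, one_mul], by simpa using hstart⟩
    | succ n ih =>
      obtain ⟨lo, hi, h1, h2, h3, h4⟩ := ih
      obtain ⟨lo', hi', g1, g2, g3, g4⟩ := h4.contract h0 hC hm hQ hy h2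
      rw [mul_div_cancel_right₀ K hm.ne'] at g3
      refine ⟨lo', hi', h1.trans g1, g2, g3.trans ?_, ?_⟩
      · calc r * (hi - lo) ≤ r * (r ^ n * (K - 1 / K)) := mul_le_mul_of_nonneg_left h3 hr0
          _ = r ^ (n + 1) * (K - 1 / K) := by ring
      · have e1 : N + (n + 1) * N = N + (N + n * N) := by ring
        rw [e1]
        exact g4
  obtain ⟨lo, hi, h1, h2, h3, h4⟩ := hiter n
  have hlo0 : 0 < lo := lt_of_lt_of_le (by positivity) h1
  have hhi : hi ≤ (1 + ε) * lo := by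
    have hd : 0 ≤ K - 1 / K := sub_nonneg.2 hKi
    have e1 : r ^ n * (K - 1 / K) ≤ ε * (1 / K) := by
      calc r ^ n * (K - 1 / K)
          ≤ ε * (1 / K) / (K - 1 / K + 1) * (K - 1 / K) := mul_le_mul_of_nonneg_right hn.le hd
        _ = ε * (1 / K) * ((K - 1 / K) / (K - 1 / K + 1)) := by ring
        _ ≤ ε * (1 / K) * 1 := by
            refine mul_le_mul_of_nonneg_left ?_ (by positivity)
            rw [div_le_one (by linarith)]
            linarith
        _ = _ := mul_one _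
    have e2 : ε * (1 / K) ≤ ε * lo := mul_le_mul_of_nonneg_left h1 hε.le
    linarith
  intro k hk x a hx ha
  have hcmp := h4.mono h0 hC hk
  have c1 := (hcmp x hx).2
  have c2 := (hcmp a ha).1
  have n1 := pow_nn h0 k x b
  have n2 := pow_nn h0 k a b
  calc (B ^ k) x y * (B ^ k) a b ≤ (hi * (B ^ k) x b) * (B ^ k) a b :=
        mul_le_mul_of_nonneg_right c1 n2
    _ ≤ (((1 + ε) * lo) * (B ^ k) x b) * (B ^ k) a b := by
        refine mul_le_mul_of_nonneg_right (mul_le_mul_of_nonneg_right hhi n1) n2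
    _ = (1 + ε) * ((B ^ k) x b * (lo * (B ^ k) a b)) := by ring
    _ ≤ (1 + ε) * ((B ^ k) x b * (B ^ k) a y) := by
        refine mul_le_mul_of_nonneg_left (mul_le_mul_of_nonneg_left c2 n1) (by linarith)

/-- the cross inequality for even powers -/
theorem cross_even_log (N : ℕ) {K : ℝ} (hK : 1 ≤ K) :
    ∃ C : ℝ, 0 ≤ C ∧ ∀ ε : ℝ, 0 < ε → ε ≤ 1 / 2 → ∃ k0 : ℕ, (k0 : ℝ) ≤ C * Real.log (1 / ε) ∧
      1 ≤ k0 ∧ ∀ k ≥ k0, ∀ (X : Type) [Fintype X] [DecidableEq X] (A : Matrix X X ℝ)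
      (hs : ∀ x y, A x y = A y x) (h0 : ∀ x y, 0 ≤ A x y) (m : ℝ) (hm : 0 < m)
      (hQ1 : ∀ x y, (∃ j : ℕ, 1 ≤ j ∧ 0 < (A ^ (2 * j)) x y) → m ≤ (A ^ (2 * N)) x y)
      (hQ2 : ∀ x y, (A ^ (2 * N)) x y ≤ K * m),
      ∀ x a y b, (∃ j : ℕ, 0 < (A ^ (2 * j)) x a) → (∃ j : ℕ, 0 < (A ^ (2 * j)) y b) →
      (A ^ (2 * k)) x y * (A ^ (2 * k)) a b ≤
        (1 + ε) * ((A ^ (2 * k)) x b * (A ^ (2 * k)) a y) := by
  classical
  obtain ⟨C, hC0, hC⟩ := cmp_log N hK
  refine ⟨C + 2, by linarith, fun ε hε hε2 => ?_⟩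
  obtain ⟨k0, hkC, hk0⟩ := hC ε hε hε2
  refine ⟨max k0 1, ?_, le_max_right _ _, fun k hk => ?_⟩
  · have hlε := half_le_log hε hε2
    have h1 : ((max k0 1 : ℕ) : ℝ) ≤ (k0 : ℝ) + 1 := by
      push_cast
      exact max_le (by linarith) (by have : (0:ℝ) ≤ k0 := Nat.cast_nonneg _; linarith)
    linarith
  intro X _ _ A hs h0 m hm hQ1 hQ2
  have hk1 : 1 ≤ k := le_trans (le_max_right _ _) hk
  have hkk : k0 ≤ k := le_trans (le_max_left _ _) hk
  set R : X → X → Prop := fun x y => ∃ j : ℕ, 0 < (A ^ (2 * j)) x y with hR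
  have hsym : ∀ {x y}, R x y → R y x := fun ⟨j, hj⟩ => ⟨j, by rw [pow_sym hs]; exact hj⟩
  have htr : ∀ {x y z}, R x y → R y z → R x z := by
    rintro x y z ⟨j, hj⟩ ⟨i, hi⟩
    refine ⟨j + i, lt_of_lt_of_le (mul_pos hj hi) ?_⟩
    rw [mul_add]
    exact pow_ge_mul h0 (2 * j) (2 * i) x y z
  have hrefl : ∀ x, R x x := fun x => ⟨0, by simp⟩
  have hB0 : ∀ x y, 0 ≤ (A ^ 2) x y := fun x y => pow_nn h0 2 x y
  have hn := pow_nn h0 (2 * k)
  intro x a y b ha hyb
  by_cases hxy : R x y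
  swap
  · have h1 : (A ^ (2 * k)) x y = 0 := by
      by_contra hne
      exact hxy ⟨k, lt_of_le_of_ne (hn x y) (Ne.symm hne)⟩
    rw [h1, zero_mul]
    exact mul_nonneg (by linarith) (mul_nonneg (hn x b) (hn a y))
  have hb : R x b := htr hxy hyb
  by_cases hrow : ∀ z, A x z = 0
  · -- a zero row
    have hz : ∀ w, (A ^ (2 * k)) x w = 0 := by
      intro w
      obtain ⟨l, hl⟩ : ∃ l, 2 * k = l + 1 := ⟨2 * k - 1, by omega⟩
      rw [hl, pow_succ', Matrix.mul_apply]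
      exact sum_eq_zero fun z _ => by rw [hrow z, zero_mul]
    rw [hz, hz]
    simp
  · -- all rows of the class are nonzero
    have hrows : ∀ a, R x a → 0 < (A ^ 2) a a := by
      intro a ha
      have h1 : ∃ z, A a z ≠ 0 := by
        by_contra hcon'
        have hcon : ∀ z, A a z = 0 := fun z => by
          by_contra hz
          exact hcon' ⟨z, hz⟩
        obtain ⟨j, hj⟩ := hsym ha
        rcases Nat.eq_zero_or_pos j with hj0 | hj0
        · rw [hj0, mul_zero, pow_zero, Matrix.one_apply] at hj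
          split_ifs at hj with hax
          · subst hax
            exact hrow hcon
          · exact absurd hj (lt_irrefl _)
        · obtain ⟨l, hl⟩ : ∃ l, 2 * j = l + 1 := ⟨2 * j - 1, by omega⟩
          rw [hl, pow_succ', Matrix.mul_apply] at hj
          rw [sum_eq_zero fun z _ => by rw [hcon z, zero_mul]] at hj
          exact absurd hj (lt_irrefl _)
      obtain ⟨z, hz⟩ := h1
      rw [pow_two, Matrix.mul_apply]
      refine lt_of_lt_of_le ?_ (single_le_sum (f := fun z => A a z * A z a)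
        (fun w _ => mul_nonneg (h0 a w) (h0 w a)) (mem_univ z))
      rw [hs z a]
      exact mul_self_pos.2 hz
    have hC : ∀ a z, R x a → ¬ R x z → (A ^ 2) a z = 0 := by
      intro a z ha hz
      by_contra hne
      have : 0 < (A ^ 2) a z := lt_of_le_of_ne (hB0 a z) (Ne.symm hne)
      exact hz (htr ha ⟨1, by simpa using this⟩)
    have hQ : ∀ a z, R x a → R x z → m ≤ ((A ^ 2) ^ N) a z ∧ ((A ^ 2) ^ N) a z ≤ K * m := by
      intro a z ha hz
      rw [← pow_mul]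
      refine ⟨hQ1 a z ?_, hQ2 a z⟩
      obtain ⟨j, hj⟩ := htr (hsym ha) hz
      rcases Nat.eq_zero_or_pos j with hj0 | hj0
      · rw [hj0, mul_zero, pow_zero, Matrix.one_apply] at hj
        split_ifs at hj with haz
        · subst haz
          exact ⟨1, le_rfl, by rw [mul_one]; exact hrows a ha⟩
        · exact absurd hj (lt_irrefl _)
      · exact ⟨j, hj0, hj⟩
    have := hk0 X (A ^ 2) (R x) hB0 hC m hm hQ y b hxy hb k hkk x a (hrefl x) ha
    simpa only [← pow_mul] using this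

/-- the cross inequality for all powers -/
theorem cross_log (N : ℕ) {K : ℝ} (hK : 1 ≤ K) :
    ∃ C : ℝ, 0 ≤ C ∧ ∀ ε : ℝ, 0 < ε → ε ≤ 1 / 2 → ∃ k0 : ℕ, (k0 : ℝ) ≤ C * Real.log (1 / ε) ∧
      1 ≤ k0 ∧ ∀ k ≥ k0, ∀ (X : Type) [Fintype X] [DecidableEq X] (A : Matrix X X ℝ)
      (hs : ∀ x y, A x y = A y x) (h0 : ∀ x y, 0 ≤ A x y) (m : ℝ) (hm : 0 < m)
      (hQ1 : ∀ x y, (∃ j : ℕ, 1 ≤ j ∧ 0 < (A ^ (2 * j)) x y) → m ≤ (A ^ (2 * N)) x y)
      (hQ2 : ∀ x y, (A ^ (2 * N)) x y ≤ K * m),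
      ∀ x a y b, (∃ j : ℕ, 0 < (A ^ (2 * j)) x a) → (∃ j : ℕ, 0 < (A ^ (2 * j)) y b) →
      (A ^ k) x y * (A ^ k) a b ≤ (1 + ε) * ((A ^ k) x b * (A ^ k) a y) := by
  obtain ⟨C, hC0, hC⟩ := cross_even_log N hK
  refine ⟨2 * C + 2, by linarith, fun ε hε hε2 => ?_⟩
  obtain ⟨k0, hkC, hk1, hk0⟩ := hC ε hε hε2
  refine ⟨2 * k0 + 1, ?_, by omega, fun k hk => ?_⟩
  · have hlε := half_le_log hε hε2
    push_cast
    linarith
  intro X _ _ A hs h0 m hm hQ1 hQ2 x a y b hxa hyb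
  rcases Nat.even_or_odd' k with ⟨l, rfl | rfl⟩
  · exact hk0 l (by omega) X A hs h0 m hm hQ1 hQ2 x a y b hxa hyb
  · have hE := hk0 l (by omega) X A hs h0 m hm hQ1 hQ2
    have hn := pow_nn h0 (2 * l)
    have e1 : ∀ u v u' v', (A ^ (2 * l + 1)) u v * (A ^ (2 * l + 1)) u' v' =
        ∑ z, ∑ z', A u z * A u' z' * ((A ^ (2 * l)) z v * (A ^ (2 * l)) z' v') := by
      intro u v u' v'
      rw [pow_succ', Matrix.mul_apply, Matrix.mul_apply, sum_mul_sum]
      refine sum_congr rfl fun z _ => sum_congr rfl fun z' _ => ?_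
      ring
    rw [e1 x y a b, e1 x b a y, mul_sum]
    refine sum_le_sum fun z _ => ?_
    rw [mul_sum]
    refine sum_le_sum fun z' _ => ?_
    by_cases hz : A x z * A a z' = 0
    · rw [hz, zero_mul, zero_mul, mul_zero]
    · have hzx : 0 < A x z := lt_of_le_of_ne (h0 _ _) fun h => hz (by rw [← h, zero_mul])
      have hza : 0 < A a z' := lt_of_le_of_ne (h0 _ _) fun h => hz (by rw [← h, mul_zero])
      have hzz : ∃ j : ℕ, 0 < (A ^ (2 * j)) z z' := by
        obtain ⟨j, hj⟩ := hxa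
        refine ⟨j + 1, ?_⟩
        have h1 : 0 < (A ^ (1 + 2 * j)) z a := by
          refine lt_of_lt_of_le (mul_pos ?_ hj) (pow_ge_mul h0 1 (2 * j) z x a)
          rw [pow_one, hs z x]
          exact hzx
        have h2 : 0 < (A ^ (1 + 2 * j + 1)) z z' := by
          refine lt_of_lt_of_le (mul_pos h1 ?_) (pow_ge_mul h0 (1 + 2 * j) 1 z a z')
          rw [pow_one]
          exact hza
        have h3 : 2 * (j + 1) = 1 + 2 * j + 1 := by ring
        rw [h3]
        exact h2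
      have h4 := hE z z' y b hzz hyb
      calc A x z * A a z' * ((A ^ (2 * l)) z y * (A ^ (2 * l)) z' b)
          ≤ A x z * A a z' * ((1 + ε) * ((A ^ (2 * l)) z b * (A ^ (2 * l)) z' y)) :=
            mul_le_mul_of_nonneg_left h4 (mul_nonneg hzx.le hza.le)
        _ = (1 + ε) * (A x z * A a z' * ((A ^ (2 * l)) z b * (A ^ (2 * l)) z' y)) := by ring


end Vale.Agent.P050.Opt.H738.Lg
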