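import Vale.Agent.P050.O.H738.LogCross

set_option linter.all false

/-!
Long subdivisions, all lengths at least `C log (D + 2)`.
-/

open MeasureTheory Finset

namespace Vale.Agent.P050.Opt.H738.Lg

open Vale.Agent.P050 Vale.Agent.P050.Dense Vale.Agent.P050.Opt Vale.Agent.P050.Opt.H774

lemma half_le_log_two (D : ℕ) : 1 / 2 ≤ Real.log ((D : ℝ) + 2) := by
  have h1 : Real.log 2 ≤ Real.log ((D : ℝ) + 2) := by
    refine Real.log_le_log (by norm_num) ?_
    have : (0:ℝ) ≤ D := Nat.cast_nonneg D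
    linarith
  have := Real.log_two_gt_d9
  linarith

/-- **Long subdivisions**: the length is at most a constant times the logarithm of the degree -/
theorem all_log {j : ℕ} (hj : 1 ≤ j) {δ : ℝ} (hδ : 0 < δ) :
    ∃ C : ℝ, ∀ (D ℓ : ℕ), C * Real.log (D + 2) ≤ ℓ →
      ∀ (X : Type) [Finite X] [Nonempty X] (G : SimpleGraph X),
      (∀ x y, (∃ q : G.Walk x y, Even q.length ∧ q.length ≠ 0) →
        δ * (Nat.card X : ℝ) ^ (2 * j - 1) ≤ Nat.card {q : G.Walk x y // q.length = 2 * j}) →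
      ∀ (V : Type) [Finite V] (F : SimpleGraph V), (∀ v, (F.neighborSet v).ncard ≤ D) →
      (subdiv ℓ F).IsBipartite →
      edgeDensity G ^ Nat.card (subdiv ℓ F).edgeSet ≤ homDensity (subdiv ℓ F) G := by
  classical
  obtain ⟨C, hC0, hC⟩ := cross_log j (le_max_left 1 δ⁻¹)
  have hl0 : 0 ≤ Real.log (3 * 10 ^ 13 : ℝ) := Real.log_nonneg (by norm_num)
  refine ⟨2 * C * (2 * Real.log (3 * 10 ^ 13) + 1) + 4, ?_⟩
  intro D ℓ hℓ0
  have hD : (0:ℝ) < 3 * 10 ^ 13 * ((D + 2 : ℕ) : ℝ) := by positivity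
  have hη : (0:ℝ) < (3 * 10 ^ 13 * ((D + 2 : ℕ) : ℝ))⁻¹ := inv_pos.mpr hD
  have hη2 : (3 * 10 ^ 13 * ((D + 2 : ℕ) : ℝ))⁻¹ ≤ 1 / 2 := by
    rw [one_div]
    refine inv_anti₀ (by norm_num) ?_
    push_cast
    have : (0:ℝ) ≤ D := Nat.cast_nonneg D
    nlinarith
  obtain ⟨L, hLC, hL1, hL⟩ := hC _ hη hη2
  have hℓ : 2 * L + 2 ≤ ℓ := by
    have h1 : Real.log (1 / (3 * 10 ^ 13 * ((D + 2 : ℕ) : ℝ))⁻¹) =
        Real.log (3 * 10 ^ 13) + Real.log ((D : ℝ) + 2) := by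
      rw [one_div, inv_inv, Real.log_mul (by norm_num) (by positivity)]
      push_cast
      rfl
    rw [h1] at hLC
    have h2 := half_le_log_two D
    have h3 : Real.log (3 * 10 ^ 13) + Real.log ((D : ℝ) + 2) ≤
        (2 * Real.log (3 * 10 ^ 13) + 1) * Real.log ((D : ℝ) + 2) := by nlinarith
    have h4 : (L : ℝ) ≤ C * ((2 * Real.log (3 * 10 ^ 13) + 1) * Real.log ((D : ℝ) + 2)) :=
      hLC.trans (mul_le_mul_of_nonneg_left h3 hC0)
    have h5 : ((2 * L + 2 : ℕ) : ℝ) ≤ (ℓ : ℝ) := by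
      push_cast
      refine le_trans ?_ hℓ0
      nlinarith
    exact_mod_cast h5
  intro X _ _ G hG V _ F hF hb
  have := Fintype.ofFinite X
  refine long_at G D ℓ (by omega) (fun k hk hk1 V _ _ H _ hH hd => ?_) V F hF hb
  have hkL : L ≤ k := by omega
  set A : Matrix X X ℝ := Matrix.of (adjK G) with hA
  have hAG : A = G.adjMatrix ℝ := by
    ext x y
    simp only [hA, Matrix.of_apply, adjK, SimpleGraph.adjMatrix_apply]
  have hs : ∀ x y, A x y = A y x := fun x y => adjK_symm G x y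
  have h0 : ∀ x y, 0 ≤ A x y := fun x y => by
    show 0 ≤ adjK G x y
    unfold adjK
    split_ifs <;> norm_num
  have h1 : ∀ x y, A x y ≤ 1 := fun x y => by
    show adjK G x y ≤ 1
    unfold adjK
    split_ifs <;> norm_num
  have hwalk : ∀ (l : ℕ) (x y : X),
      (A ^ l) x y = (Nat.card {q : G.Walk x y // q.length = l} : ℝ) := by
    intro l x y
    rw [hAG, SimpleGraph.adjMatrix_pow_apply_eq_card_walk, ← Nat.card_eq_fintype_card]
    rfl
  have hcard : (0:ℝ) < Fintype.card X := by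
    have := Fintype.card_pos (α := X)
    positivity
  have hcross := hL k hkL X A hs h0 (δ * (Fintype.card X : ℝ) ^ (2 * j - 1)) (by positivity)
    (by
      rintro x y ⟨i, hi1, hi⟩
      rw [hwalk] at hi ⊢
      rw [← Nat.card_eq_fintype_card]
      refine hG x y ?_
      have h2 : 0 < Nat.card {q : G.Walk x y // q.length = 2 * i} := by exact_mod_cast hi
      obtain ⟨⟨q, hq⟩⟩ := (Nat.card_pos_iff.1 h2).1
      exact ⟨q, by rw [hq]; exact ⟨i, by ring⟩, by omega⟩)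
    (by
      intro x y
      obtain ⟨l, hl⟩ : ∃ l, 2 * j = l + 1 := ⟨2 * j - 1, by omega⟩
      have h2 := H234.pow_le_card h0 h1 l x y
      rw [hl, Nat.add_sub_cancel]
      refine h2.trans ?_
      have h3 : (1:ℝ) ≤ max 1 δ⁻¹ * δ := by
        calc (1:ℝ) = δ⁻¹ * δ := (inv_mul_cancel₀ hδ.ne').symm
          _ ≤ max 1 δ⁻¹ * δ := mul_le_mul_of_nonneg_right (le_max_right _ _) hδ.le
      calc (Fintype.card X : ℝ) ^ l = 1 * (Fintype.card X : ℝ) ^ l := (one_mul _).symm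
        _ ≤ (max 1 δ⁻¹ * δ) * (Fintype.card X : ℝ) ^ l :=
            mul_le_mul_of_nonneg_right h3 (by positivity)
        _ = max 1 δ⁻¹ * (δ * (Fintype.card X : ℝ) ^ l) := by ring)
  obtain ⟨h2, h3⟩ := cls_of_cross (adjK G) (adjK_symm G) (fun x y => h0 x y) hη hcross
  exact kernel_at H hH (D := D + 2) (by omega) hd hη.le
    (by rw [mul_inv_cancel₀ hD.ne']) (adjK G) (adjK_symm G) (fun x y => h0 x y) hk1
    (cls (Matrix.of (adjK G))) h2 h3


/-- **Long subdivisions**: targets on at most `n` vertices and targets satisfying the walk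
condition -/
theorem long_log (n j : ℕ) (ε : ℝ) (hj : 1 ≤ j) (hε : 0 < ε) :
    ∃ C : ℝ, ∀ (D ℓ : ℕ), C * Real.log (D + 2) ≤ ℓ →
      ∀ (X : Type) [Finite X] [Nonempty X] (G : SimpleGraph X),
      (Nat.card X ≤ n ∨ ∀ x y, (∃ q : G.Walk x y, Even q.length ∧ q.length ≠ 0) →
        ε * (Nat.card X : ℝ) ^ (2 * j - 1) ≤ Nat.card {q : G.Walk x y // q.length = 2 * j}) →
      ∀ (V : Type) [Finite V] (F : SimpleGraph V), (∀ v, (F.neighborSet v).ncard ≤ D) →
      (subdiv ℓ F).IsBipartite →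
      edgeDensity G ^ Nat.card (subdiv ℓ F).edgeSet ≤ homDensity (subdiv ℓ F) G := by
  obtain ⟨δ, hδ, hs⟩ := small_hyp (max n 1) (le_max_right _ _)
  obtain ⟨C₁, h₁⟩ := all_log (le_max_right n 1) hδ
  obtain ⟨C₂, h₂⟩ := all_log hj hε
  refine ⟨max C₁ C₂, fun D ℓ hℓ X _ _ G hG V _ F hF hb => ?_⟩
  have h0 : 0 ≤ Real.log ((D : ℝ) + 2) := by linarith [half_le_log_two D]
  rcases hG with hG | hG
  · exact h₁ D ℓ (le_trans (mul_le_mul_of_nonneg_right (le_max_left _ _) h0) hℓ) X G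
      (hs X G (le_trans hG (le_max_left _ _))) V F hF hb
  · exact h₂ D ℓ (le_trans (mul_le_mul_of_nonneg_right (le_max_right _ _) h0) hℓ) X G hG V F hF hb

end Vale.Agent.P050.Opt.H738.Lg
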