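import Mathlib

set_option linter.all false

/-!
Even powers of a symmetric nonnegative matrix are nearly of rank one on the classes of
`x ~ y` iff some even power is positive at `(x, y)`.
-/

open Finset Filter

namespace Vale.Agent.P050.Opt.H738NB

variable {X : Type} [Fintype X] [DecidableEq X]

/-- the classes -/
def Cls (A : Matrix X X ℝ) (x y : X) : Prop := ∃ j : ℕ, 0 < (A ^ (2 * j)) x y

/-- nearly rank one on the classes -/
def PP (B : Matrix X X ℝ) (C : X → X → Prop) (k : ℕ) (t : ℝ) : Prop :=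
  ∀ x y a b, C x y → C x a → C x b →
    (B ^ k) x y * (B ^ k) a b ≤ (1 + t) * ((B ^ k) x b * (B ^ k) a y)

theorem pow_nonneg' {B : Matrix X X ℝ} (h0 : ∀ x y, 0 ≤ B x y) (k : ℕ) :
    ∀ x y, 0 ≤ (B ^ k) x y := by
  induction k with
  | zero =>
    intro x y
    rw [pow_zero, Matrix.one_apply]
    split_ifs <;> norm_num
  | succ k ih =>
    intro x y
    rw [pow_succ, Matrix.mul_apply]
    exact sum_nonneg fun z _ => mul_nonneg (ih _ _) (h0 _ _)

theorem pow_symm' {B : Matrix X X ℝ} (hs : ∀ x y, B x y = B y x) (k : ℕ) :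
    ∀ x y, (B ^ k) x y = (B ^ k) y x := by
  have h : B.IsSymm := by
    ext x y
    exact (hs x y).symm
  intro x y
  have := (h.pow k)
  exact (Matrix.IsSymm.apply this y x)

/-- the contraction -/
theorem contract (Q : Matrix X X ℝ) (hQ : ∀ x y, 0 ≤ Q x y) {c t : ℝ} (hc1 : c ≤ 1) (ht : 0 ≤ t)
    (u v : X → ℝ) (hu : ∀ z, 0 ≤ u z) (hv : ∀ z, 0 ≤ v z) (x a : X)
    (hQc : ∀ z w, c * (Q x z * Q a w) ≤ Q x w * Q a z)
    (hD : ∀ z w, 0 < Q x z → 0 < Q a w → u z * v w ≤ (1 + t) * (v z * u w)) :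
    (∑ z, Q x z * u z) * (∑ w, Q a w * v w) ≤
      (1 + (1 - c) * t) * ((∑ z, Q x z * v z) * ∑ w, Q a w * u w) := by
  set Dp : X → X → ℝ := fun z w => max (u z * v w - v z * u w) 0 with hDp
  have h1 : ∀ z w, u z * v w - v z * u w = Dp z w - Dp w z := by
    intro z w
    simp only [hDp]
    rcases le_total (u z * v w) (v z * u w) with h | h
    · rw [max_eq_right (by linarith), max_eq_left (by linarith)]
      ring
    · rw [max_eq_left (by linarith), max_eq_right (by linarith)]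
      ring
  have e1 : (∑ z, Q x z * u z) * (∑ w, Q a w * v w) =
      ∑ z, ∑ w, Q x z * Q a w * (u z * v w) := by
    rw [sum_mul_sum]
    exact sum_congr rfl fun z _ => sum_congr rfl fun w _ => by ring
  have e2 : (∑ z, Q x z * v z) * (∑ w, Q a w * u w) =
      ∑ z, ∑ w, Q x z * Q a w * (v z * u w) := by
    rw [sum_mul_sum]
    exact sum_congr rfl fun z _ => sum_congr rfl fun w _ => by ring
  have e3 : ∑ z, ∑ w, Q x z * Q a w * Dp w z = ∑ z, ∑ w, Q x w * Q a z * Dp z w := by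
    rw [sum_comm]
  have e4 : (∑ z, ∑ w, Q x z * Q a w * (u z * v w)) - ∑ z, ∑ w, Q x z * Q a w * (v z * u w) =
      ∑ z, ∑ w, (Q x z * Q a w - Q x w * Q a z) * Dp z w := by
    have : (∑ z, ∑ w, Q x z * Q a w * (u z * v w)) - ∑ z, ∑ w, Q x z * Q a w * (v z * u w) =
        (∑ z, ∑ w, Q x z * Q a w * Dp z w) - ∑ z, ∑ w, Q x z * Q a w * Dp w z := by
      rw [← sum_sub_distrib, ← sum_sub_distrib]
      refine sum_congr rfl fun z _ => ?_
      rw [← sum_sub_distrib, ← sum_sub_distrib]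
      refine sum_congr rfl fun w _ => ?_
      rw [← mul_sub, ← mul_sub, h1]
    rw [this, e3, ← sum_sub_distrib]
    refine sum_congr rfl fun z _ => ?_
    rw [← sum_sub_distrib]
    exact sum_congr rfl fun w _ => by ring
  have h2 : ∑ z, ∑ w, (Q x z * Q a w - Q x w * Q a z) * Dp z w ≤
      ∑ z, ∑ w, (1 - c) * t * (Q x z * Q a w * (v z * u w)) := by
    refine sum_le_sum fun z _ => sum_le_sum fun w _ => ?_
    have hDn : 0 ≤ Dp z w := le_max_right _ _
    have hQQ : 0 ≤ Q x z * Q a w := mul_nonneg (hQ _ _) (hQ _ _)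
    have h3 : (Q x z * Q a w - Q x w * Q a z) * Dp z w ≤
        (1 - c) * (Q x z * Q a w) * Dp z w :=
      mul_le_mul_of_nonneg_right (by linarith [hQc z w]) hDn
    have h4 : Q x z * Q a w * Dp z w ≤ Q x z * Q a w * (t * (v z * u w)) := by
      rcases hQQ.eq_or_lt with h5 | h5
      · rw [← h5]; simp
      · refine mul_le_mul_of_nonneg_left ?_ hQQ
        have hx : 0 < Q x z := by
          rcases (hQ x z).eq_or_lt with h6 | h6
          · rw [← h6, zero_mul] at h5; exact absurd h5 (lt_irrefl _)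
          · exact h6
        have ha : 0 < Q a w := by
          rcases (hQ a w).eq_or_lt with h6 | h6
          · rw [← h6, mul_zero] at h5; exact absurd h5 (lt_irrefl _)
          · exact h6
        have h7 := hD z w hx ha
        refine max_le (by linarith) (mul_nonneg ht (mul_nonneg (hv _) (hu _)))
    calc (Q x z * Q a w - Q x w * Q a z) * Dp z w ≤ (1 - c) * (Q x z * Q a w) * Dp z w := h3
      _ = (1 - c) * (Q x z * Q a w * Dp z w) := by ring
      _ ≤ (1 - c) * (Q x z * Q a w * (t * (v z * u w))) :=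
          mul_le_mul_of_nonneg_left h4 (by linarith)
      _ = _ := by ring
  have h3 : ∑ z, ∑ w, (1 - c) * t * (Q x z * Q a w * (v z * u w)) =
      (1 - c) * t * ∑ z, ∑ w, Q x z * Q a w * (v z * u w) := by
    rw [mul_sum]
    exact sum_congr rfl fun z _ => by rw [mul_sum]
  rw [e1, e2]
  rw [h3] at h2
  linarith


theorem Cls.symm {A : Matrix X X ℝ} (hs : ∀ x y, A x y = A y x) {x y : X} (h : Cls A x y) :
    Cls A y x := by
  obtain ⟨j, hj⟩ := h
  exact ⟨j, by rwa [pow_symm' hs]⟩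

theorem Cls.trans {A : Matrix X X ℝ} (h0 : ∀ x y, 0 ≤ A x y) {x y z : X} (h : Cls A x y)
    (h' : Cls A y z) : Cls A x z := by
  obtain ⟨i, hi⟩ := h
  obtain ⟨j, hj⟩ := h'
  refine ⟨i + j, ?_⟩
  rw [mul_add, pow_add, Matrix.mul_apply]
  exact lt_of_lt_of_le (mul_pos hi hj) (single_le_sum
    (f := fun w => (A ^ (2 * i)) x w * (A ^ (2 * j)) w z)
    (fun w _ => mul_nonneg (pow_nonneg' h0 _ _ _) (pow_nonneg' h0 _ _ _)) (mem_univ y))

/-- the step -/
theorem PP.step {A : Matrix X X ℝ} (hs : ∀ x y, A x y = A y x) (h0 : ∀ x y, 0 ≤ A x y)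
    {k k0 : ℕ} {c t : ℝ} (hc1 : c ≤ 1) (ht : 0 ≤ t)
    (hQc : ∀ x a, Cls A x a → ∀ z w, c * (((A ^ 2) ^ k0) x z * ((A ^ 2) ^ k0) a w) ≤
      ((A ^ 2) ^ k0) x w * ((A ^ 2) ^ k0) a z)
    (h : PP (A ^ 2) (Cls A) k t) : PP (A ^ 2) (Cls A) (k0 + k) ((1 - c) * t) := by
  have hB0 : ∀ j x y, 0 ≤ ((A ^ 2) ^ j) x y := fun j x y => by
    rw [← pow_mul]
    exact pow_nonneg' h0 _ _ _
  have hBC : ∀ j x y, 0 < ((A ^ 2) ^ j) x y → Cls A x y := fun j x y hj => ⟨j, by rwa [pow_mul]⟩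
  intro x y a b hxy hxa hxb
  rw [pow_add]
  simp only [Matrix.mul_apply]
  refine contract ((A ^ 2) ^ k0) (hB0 k0) hc1 ht (fun z => ((A ^ 2) ^ k) z y)
    (fun z => ((A ^ 2) ^ k) z b) (fun z => hB0 _ _ _) (fun z => hB0 _ _ _) x a (hQc x a hxa) ?_
  intro z w hz hw
  have h1 := (hBC _ _ _ hz).symm hs
  have h2 := hBC _ _ _ hw
  exact h z y w b (h1.trans h0 hxy) (h1.trans h0 (hxa.trans h0 h2)) (h1.trans h0 hxb)

theorem PP.mono {B : Matrix X X ℝ} {C : X → X → Prop} (hB : ∀ j x y, 0 ≤ (B ^ j) x y)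
    {k : ℕ} {s t : ℝ} (hst : s ≤ t) (h : PP B C k s) : PP B C k t := by
  intro x y a b hxy hxa hxb
  refine (h x y a b hxy hxa hxb).trans (mul_le_mul_of_nonneg_right (by linarith)
    (mul_nonneg (hB _ _ _) (hB _ _ _)))

/-- positivity on the classes -/
theorem exists_k0 (A : Matrix X X ℝ) (hs : ∀ x y, A x y = A y x) (h0 : ∀ x y, 0 ≤ A x y) :
    ∃ k0 : ℕ, 1 ≤ k0 ∧ ∀ x y, Cls A x y → (∃ z, 0 < A x z) → 0 < ((A ^ 2) ^ k0) x y := by
  have hB0 : ∀ j x y, 0 ≤ ((A ^ 2) ^ j) x y := fun j x y => by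
    rw [← pow_mul]
    exact pow_nonneg' h0 _ _ _
  have h1 : ∀ x y, Cls A x y → (∃ z, 0 < A x z) →
      ∀ᶠ k in atTop, 0 < ((A ^ 2) ^ k) x y := by
    rintro x y ⟨j, hj⟩ ⟨z, hz⟩
    have hxx : 0 < (A ^ 2) x x := by
      rw [pow_two, Matrix.mul_apply]
      refine lt_of_lt_of_le (mul_pos hz (by rwa [← hs x z])) (single_le_sum
        (f := fun w => A x w * A w x) (fun w _ => mul_nonneg (h0 _ _) (h0 _ _)) (mem_univ z))
    have h2 : ∀ i, 0 < ((A ^ 2) ^ (i + j)) x y := by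
      intro i
      induction i with
      | zero =>
        rw [zero_add, ← pow_mul]
        exact hj
      | succ i ih =>
        rw [show i + 1 + j = 1 + (i + j) by ring, pow_add, pow_one, Matrix.mul_apply]
        exact lt_of_lt_of_le (mul_pos hxx ih) (single_le_sum
          (f := fun w => (A ^ 2) x w * ((A ^ 2) ^ (i + j)) w y)
          (fun w _ => mul_nonneg (by simpa using hB0 1 x w) (hB0 _ _ _)) (mem_univ x))
    filter_upwards [eventually_ge_atTop j] with k hk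
    have := h2 (k - j)
    rwa [Nat.sub_add_cancel hk] at this
  have h2 : ∀ᶠ k in atTop, ∀ x y, Cls A x y → (∃ z, 0 < A x z) → 0 < ((A ^ 2) ^ k) x y := by
    rw [eventually_all]
    intro x
    rw [eventually_all]
    intro y
    by_cases h3 : Cls A x y ∧ ∃ z, 0 < A x z
    · filter_upwards [h1 x y h3.1 h3.2] with k hk
      intro _ _
      exact hk
    · exact Eventually.of_forall fun k h4 h5 => absurd ⟨h4, h5⟩ h3
  obtain ⟨k0, h3, h4⟩ := (h2.and (eventually_ge_atTop 1)).exists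
  exact ⟨k0, h4, h3⟩

theorem near (A : Matrix X X ℝ) (hs : ∀ x y, A x y = A y x) (h0 : ∀ x y, 0 ≤ A x y)
    {ε : ℝ} (hε : 0 < ε) : ∃ K : ℕ, ∀ k ≥ K, PP (A ^ 2) (Cls A) k ε := by
  have hB0 : ∀ j x y, 0 ≤ ((A ^ 2) ^ j) x y := fun j x y => by
    rw [← pow_mul]
    exact pow_nonneg' h0 _ _ _
  obtain ⟨k0, hk0, hpos⟩ := exists_k0 A hs h0
  set Q := (A ^ 2) ^ k0 with hQ
  have hQ0 : ∀ x y, 0 ≤ Q x y := hB0 k0
  have hrow : ∀ x z, 0 < Q x z → ∃ w, 0 < A x w := by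
    intro x z h
    by_contra h1
    push Not at h1
    have h2 : ∀ w, A x w = 0 := fun w => le_antisymm (h1 w) (h0 _ _)
    have h3 : Q x z = 0 := by
      obtain ⟨j, hj⟩ : ∃ j, 2 * k0 = 1 + j := ⟨2 * k0 - 1, by omega⟩
      rw [hQ, ← pow_mul, hj, pow_add, pow_one, Matrix.mul_apply]
      exact sum_eq_zero fun w _ => by rw [h2, zero_mul]
    exact h.ne' h3
  -- lower and upper bounds
  obtain ⟨m, hm0, hm⟩ : ∃ m : ℝ, 0 < m ∧ ∀ x y, 0 < Q x y → m ≤ Q x y := by
    have h1 : ∀ᶠ m in nhdsWithin (0:ℝ) (Set.Ioi 0), ∀ x y, 0 < Q x y → m ≤ Q x y := by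
      rw [eventually_all]
      intro x
      rw [eventually_all]
      intro y
      by_cases h : 0 < Q x y
      · filter_upwards [(eventually_le_nhds h).filter_mono nhdsWithin_le_nhds] with m hm
        exact fun _ => hm
      · exact Eventually.of_forall fun m h' => absurd h' h
    obtain ⟨m, h2, h3⟩ := (h1.and self_mem_nhdsWithin).exists
    exact ⟨m, h3, h2⟩
  obtain ⟨M, hM1, hM⟩ : ∃ M : ℝ, m ≤ M ∧ ∀ x y, Q x y ≤ M := by
    have h1 : ∀ᶠ M in (atTop : Filter ℝ), ∀ x y, Q x y ≤ M := by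
      rw [eventually_all]
      intro x
      rw [eventually_all]
      intro y
      exact eventually_ge_atTop _
    obtain ⟨M, h2, h3⟩ := (h1.and (eventually_ge_atTop m)).exists
    exact ⟨M, h3, h2⟩
  have hM0 : 0 < M := lt_of_lt_of_le hm0 hM1
  set c : ℝ := m ^ 2 / M ^ 2 with hc
  have hc0 : 0 < c := by positivity
  have hc1 : c ≤ 1 := by
    rw [hc, div_le_one (by positivity)]
    exact pow_le_pow_left₀ hm0.le hM1 2
  set t0 : ℝ := M ^ 2 / m ^ 2 - 1 with ht0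
  have ht00 : 0 ≤ t0 := by
    rw [ht0, sub_nonneg, le_div_iff₀ (by positivity), one_mul]
    exact pow_le_pow_left₀ hm0.le hM1 2
  have hlow : ∀ x y, Cls A x y → (∃ z, 0 < Q x z) → m ≤ Q x y := by
    rintro x y hxy ⟨z, hz⟩
    exact hm x y (hpos x y hxy (hrow x z hz))
  have hup2 : ∀ x z a w, Q x z * Q a w ≤ M ^ 2 := by
    intro x z a w
    rw [pow_two]
    exact mul_le_mul (hM _ _) (hM _ _) (hQ0 _ _) hM0.le
  have hlow2 : ∀ x y a b, Cls A x y → (∃ z, 0 < Q x z) → Cls A a b → (∃ z, 0 < Q a z) →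
      m ^ 2 ≤ Q x y * Q a b := by
    intro x y a b h1 h2 h3 h4
    rw [pow_two]
    exact mul_le_mul (hlow _ _ h1 h2) (hlow _ _ h3 h4) hm0.le (hQ0 _ _)
  have hCQ : ∀ x z, 0 < Q x z → Cls A x z := fun x z h => ⟨k0, by rwa [pow_mul]⟩
  have hQc : ∀ x a, Cls A x a → ∀ z w, c * (Q x z * Q a w) ≤ Q x w * Q a z := by
    intro x a hxa z w
    rcases (mul_nonneg (hQ0 x z) (hQ0 a w)).eq_or_lt with h | h
    · rw [← h, mul_zero]
      exact mul_nonneg (hQ0 _ _) (hQ0 _ _)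
    · have hx : 0 < Q x z := pos_of_mul_pos_left h (hQ0 _ _)
      have ha : 0 < Q a w := pos_of_mul_pos_right h (hQ0 _ _)
      have h1 := hlow2 x w a z (hxa.trans h0 (hCQ _ _ ha)) ⟨z, hx⟩
        ((hxa.symm hs).trans h0 (hCQ _ _ hx)) ⟨w, ha⟩
      refine le_trans ?_ h1
      calc c * (Q x z * Q a w) ≤ c * M ^ 2 := mul_le_mul_of_nonneg_left (hup2 _ _ _ _) hc0.le
        _ = m ^ 2 := by rw [hc]; field_simp
  have hbase : PP (A ^ 2) (Cls A) k0 t0 := by
    intro x y a b hxy hxa hxb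
    show Q x y * Q a b ≤ (1 + t0) * (Q x b * Q a y)
    rcases (mul_nonneg (hQ0 x y) (hQ0 a b)).eq_or_lt with h | h
    · rw [← h]
      exact mul_nonneg (by linarith) (mul_nonneg (hQ0 _ _) (hQ0 _ _))
    · have hx : 0 < Q x y := pos_of_mul_pos_left h (hQ0 _ _)
      have ha : 0 < Q a b := pos_of_mul_pos_right h (hQ0 _ _)
      have h1 := hlow2 x b a y hxb ⟨y, hx⟩ ((hxa.symm hs).trans h0 hxy) ⟨b, ha⟩
      calc Q x y * Q a b ≤ M ^ 2 := hup2 _ _ _ _
        _ = (1 + t0) * m ^ 2 := by rw [ht0]; field_simp; ring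
        _ ≤ _ := mul_le_mul_of_nonneg_left h1 (by linarith)
  have hiter : ∀ n : ℕ, PP (A ^ 2) (Cls A) (k0 * n + k0) ((1 - c) ^ n * t0) := by
    intro n
    induction n with
    | zero => simpa using hbase
    | succ n ih =>
      have h1 := PP.step hs h0 hc1 (mul_nonneg (pow_nonneg (by linarith) n) ht00) hQc ih
      rw [show k0 * (n + 1) + k0 = k0 + (k0 * n + k0) by ring,
        show (1 - c) ^ (n + 1) * t0 = (1 - c) * ((1 - c) ^ n * t0) by rw [pow_succ]; ring]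
      exact h1
  obtain ⟨n, hn⟩ : ∃ n : ℕ, (1 - c) ^ n * t0 ≤ ε := by
    have h1 : Tendsto (fun n : ℕ => (1 - c) ^ n * t0) atTop (nhds (0 * t0)) :=
      (tendsto_pow_atTop_nhds_zero_of_lt_one (by linarith) (by linarith)).mul_const t0
    rw [zero_mul] at h1
    exact ((h1.eventually (gt_mem_nhds hε)).exists).imp fun n hn => hn.le
  refine ⟨k0 * n + k0, fun k hk => ?_⟩
  obtain ⟨i, rfl⟩ := Nat.exists_eq_add_of_le hk
  induction i with
  | zero => exact (hiter n).mono hB0 hn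
  | succ i ih =>
    have h1 := PP.step (k0 := 1) (c := 0) hs h0 zero_le_one hε.le (fun x a _ z w => by
      rw [zero_mul]
      exact mul_nonneg (hB0 _ _ _) (hB0 _ _ _)) (ih (by omega))
    rw [show k0 * n + k0 + (i + 1) = 1 + (k0 * n + k0 + i) by ring]
    simpa using h1

/-- J5 -/
theorem near_block (A : Matrix X X ℝ) (hs : ∀ x y, A x y = A y x) (h0 : ∀ x y, 0 ≤ A x y)
    {ε : ℝ} (hε : 0 < ε) :
    ∃ k0 : ℕ, ∀ k ≥ k0, ∀ x y, (∃ j : ℕ, 0 < (A ^ (2 * j)) x y) →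
      (A ^ (2 * k)) x y * (∑ a, ∑ b, (open scoped Classical in
        if (∃ j : ℕ, 0 < (A ^ (2 * j)) x a) ∧ (∃ j : ℕ, 0 < (A ^ (2 * j)) x b)
        then (A ^ (2 * k)) a b else 0)) ≤
      (1 + ε) * ((∑ b, (A ^ (2 * k)) x b) * ∑ b, (A ^ (2 * k)) y b) := by
  classical
  obtain ⟨K, hK⟩ := near A hs h0 hε
  refine ⟨K, fun k hk x y hxy => ?_⟩
  have hn := pow_nonneg' h0 (2 * k)
  have hsy := pow_symm' hs (2 * k)
  have h1 := hK k hk
  unfold PP at h1
  simp only [← pow_mul] at h1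
  have hR : (1 + ε) * ((∑ b, (A ^ (2 * k)) x b) * ∑ b, (A ^ (2 * k)) y b) =
      ∑ a, ∑ b, (1 + ε) * ((A ^ (2 * k)) x b * (A ^ (2 * k)) y a) := by
    rw [mul_comm (∑ b, (A ^ (2 * k)) x b), mul_sum (f := fun b => (A ^ (2 * k)) x b)]
    rw [mul_sum, sum_comm]
    refine sum_congr rfl fun b _ => ?_
    rw [← mul_sum, sum_mul]
    refine congrArg _ (sum_congr rfl fun a _ => ?_)
    ring
  rw [hR, mul_sum]
  refine sum_le_sum fun a _ => ?_
  rw [mul_sum]
  refine sum_le_sum fun b _ => ?_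
  split_ifs with h
  · have h2 := h1 x y a b hxy h.1 h.2
    rw [hsy a y] at h2
    exact h2
  · rw [mul_zero]
    exact mul_nonneg (by linarith) (mul_nonneg (hn _ _) (hn _ _))

end Vale.Agent.P050.Opt.H738NB
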