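import Vale.Agent.P050.O.H738.CorePos

set_option linter.all false

/-!
Dense targets, optimal order: clean segments of a shape.
-/

open MeasureTheory Finset

namespace Vale.Agent.P050.Opt

open Vale.Agent.P050 Vale.Agent.P050.Dense

variable {V : Type*} [Fintype V] [DecidableEq V] {Ω : Type*} [MeasurableSpace Ω]
variable (μ : Measure Ω) [IsProbabilityMeasure μ] {U : Sym2 Ω → ℝ} {κ η : ℝ}

/-- two segments `[t1, t1 + k]`, `[t2, t2 + k]` of the path, no chord ends strictly inside, a chord
from `[0, t1]` to the rest and a chord from `[t2 + k, M]` to the rest -/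
theorem seg2 (hU : Ker μ U κ η) {f : ℕ → V} {M : ℕ} {K : Finset (ℕ × ℕ)} (hf : Pos f M K)
    {k t1 t2 : ℕ} (hk : 2 ≤ k) (h12 : t1 + k ≤ t2) (h2 : t2 + k ≤ M)
    (c1 : ∀ c ∈ K, ∀ x, (x = c.1 ∨ x = c.2) → ¬ (t1 < x ∧ x < t1 + k) ∧ ¬ (t2 < x ∧ x < t2 + k))
    (hA : ∃ c ∈ K, c.1 ≤ t1 ∧ t1 < c.2) (hC : ∃ c ∈ K, c.1 < t2 + k ∧ t2 + k ≤ c.2) :
    Bd μ U κ f M K k := by
  have hpath : ∀ x, x + 1 ≤ M → (x < t1 ∨ (t1 + k ≤ x ∧ x < t2) ∨ t2 + k ≤ x) →
      H738.RE M K k (fun i => t1 + i) (fun i => t2 + i) x (x + 1) := by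
    intro x hx hx'
    refine ⟨Or.inl ⟨rfl, hx⟩, fun i hi => ⟨?_, ?_⟩, fun i hi => ⟨?_, ?_⟩⟩ <;> simp only <;> omega
  have hchord : ∀ c ∈ K, H738.RE M K k (fun i => t1 + i) (fun i => t2 + i) c.1 c.2 := by
    intro c hc
    have := hf.ch c hc
    refine ⟨Or.inr (Or.inr (Or.inl hc)), fun i hi => ⟨?_, ?_⟩, fun i hi => ⟨?_, ?_⟩⟩ <;>
      simp only <;> omega
  have sA : ∀ x ≤ t1, H738.RT M K k (fun i => t1 + i) (fun i => t2 + i) x t1 := by
    intro x hx
    refine H738.RT.seg hx fun i h1 h2 => hpath i (by omega) (Or.inl h2)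
  have sB : ∀ x y, t1 + k ≤ x → x ≤ y → y ≤ t2 →
      H738.RT M K k (fun i => t1 + i) (fun i => t2 + i) x y := by
    intro x y hx hxy hy
    refine H738.RT.seg hxy fun i h1 h2 => hpath i (by omega) (Or.inr (Or.inl ⟨by omega, by omega⟩))
  have sC : ∀ x y, t2 + k ≤ x → x ≤ y → y ≤ M →
      H738.RT M K k (fun i => t1 + i) (fun i => t2 + i) x y := by
    intro x y hx hxy hy
    refine H738.RT.seg hxy fun i h1 h2 => hpath i (by omega) (Or.inr (Or.inr (by omega)))
  have hcl : ∀ c ∈ K, ∀ x, (x = c.1 ∨ x = c.2) → x ≤ t1 ∨ (t1 + k ≤ x ∧ x ≤ t2) ∨ t2 + k ≤ x := by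
    intro c hc x hx
    have := c1 c hc x hx
    omega
  have hsplit : ∀ x ≤ M, (∀ i, 0 < i → i < k → x ≠ t1 + i ∧ x ≠ t2 + i) →
      x ≤ t1 ∨ (t1 + k ≤ x ∧ x ≤ t2) ∨ t2 + k ≤ x := by
    intro x hx hn
    by_contra hcon
    push Not at hcon
    obtain ⟨h1, h3, h4⟩ := hcon
    by_cases h5 : x < t1 + k
    · exact (hn (x - t1) (by omega) (by omega)).1 (by omega)
    · exact (hn (x - t2) (by omega) (by omega)).2 (by omega)
  refine H738.core_pos μ hU hf hk (P1 := fun i => t1 + i) (P2 := fun i => t2 + i)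
    (fun i hi => by (try simp only); omega) (fun i hi => by (try simp only); omega)
    (fun i hi j hj h => by (try simp only at h); omega) (fun i hi j hj h => by (try simp only at h); omega)
    (fun i hi hi' j hj h => by (try simp only at h); omega)
    (fun i hi hi' j hj h => by (try simp only at h); omega)
    (fun i hi => Or.inl ⟨by (try simp only); omega, by (try simp only); omega⟩)
    (fun i hi => Or.inl ⟨by (try simp only); omega, by (try simp only); omega⟩) ?_ ?_ ?_ ?_
  · intro i hi hi' y hy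
    try simp only at hy ⊢
    rcases hy with hy | hy | hy | hy
    · right; omega
    · left; omega
    · have := c1 _ hy (t1 + i) (Or.inl rfl)
      omega
    · have := c1 _ hy (t1 + i) (Or.inr rfl)
      omega
  · intro i hi hi' y hy
    try simp only at hy ⊢
    rcases hy with hy | hy | hy | hy
    · right; omega
    · left; omega
    · have := c1 _ hy (t2 + i) (Or.inl rfl)
      omega
    · have := c1 _ hy (t2 + i) (Or.inr rfl)
      omega
  · intro x hx hn
    (try simp only [add_zero])
    rcases hsplit x hx hn with h | ⟨h, h'⟩ | h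
    · exact Or.inl (sA x h).symm
    · exact Or.inr (sB _ _ le_rfl h h')
    · -- `x` in the last piece
      obtain ⟨c, hc, h3, h4⟩ := hC
      have hc2 := hf.ch c hc
      have hxc : H738.RT M K k (fun i => t1 + i) (fun i => t2 + i) c.2 x := by
        rcases le_total c.2 x with h5 | h5
        · exact sC _ _ h4 h5 hx
        · exact (sC _ _ h h5 hc2.2).symm
      have hcc : H738.RT M K k (fun i => t1 + i) (fun i => t2 + i) c.1 x :=
        Relation.ReflTransGen.head (hchord c hc) hxc
      rcases hcl c hc c.1 (Or.inl rfl) with h5 | ⟨h5, h6⟩ | h5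
      · exact Or.inl (((sA _ h5).symm).trans hcc)
      · exact Or.inr ((sB _ _ le_rfl h5 h6).trans hcc)
      · omega
  · intro x hx hn
    (try simp only [add_zero])
    rcases hsplit x hx hn with h | ⟨h, h'⟩ | h
    · -- `x` in the first piece
      obtain ⟨c, hc, h3, h4⟩ := hA
      have hc2 := hf.ch c hc
      have hxc : H738.RT M K k (fun i => t1 + i) (fun i => t2 + i) c.1 x :=
        (sA _ h3).trans (sA _ h).symm
      have hcc : H738.RT M K k (fun i => t1 + i) (fun i => t2 + i) c.2 x :=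
        Relation.ReflTransGen.head (hchord c hc).symm hxc
      rcases hcl c hc c.2 (Or.inr rfl) with h5 | ⟨h5, h6⟩ | h5
      · omega
      · exact Or.inl (((sB _ _ h5 h6 le_rfl).symm).trans hcc)
      · exact Or.inr ((sC _ _ le_rfl h5 hc2.2).trans hcc)
    · exact Or.inl ((sB _ _ h h' le_rfl).symm)
    · exact Or.inr (sC _ _ le_rfl h hx)

namespace H738

/-- the walk `k - 1, k - 2, …, 0, i` -/
def PS (k i : ℕ) (j : ℕ) : ℕ := if j = k then i else k - 1 - j

/-- a cycle of length `2 k` at the beginning -/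
theorem cyc0_eq (hU : Ker μ U κ η) {f : ℕ → V} {M : ℕ} {K : Finset (ℕ × ℕ)} (hf : Pos f M K)
    {k i : ℕ} (hk : 2 ≤ k) (hi : 2 * k = i + 1) (h0 : (0, i) ∈ K)
    (hK : ∀ c ∈ K, c ≠ (0, i) → i ≤ c.1) : Bd μ U κ f M K k := by
  have hiM : i ≤ M := (hf.ch _ h0).2
  have hEd : ∀ x y, x < i → Ed M K x y → y + 1 = x ∨ x + 1 = y ∨ (x = 0 ∧ y = i) := by
    intro x y hx hy
    rcases hy with hy | hy | hy | hy
    · omega
    · omega
    · by_cases he : (x, y) = (0, i)
      · rw [Prod.mk.injEq] at he
        omega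
      · have := hK _ hy he
        simp only at this
        omega
    · by_cases he : (y, x) = (0, i)
      · rw [Prod.mk.injEq] at he
        omega
      · have h1 := hK _ hy he
        have h2 := hf.ch _ hy
        simp only at h1 h2
        omega
  have hpath : ∀ x, x + 1 ≤ M → i ≤ x →
      RE M K k (fun j => i - j) (PS k i) x (x + 1) := by
    intro x hx hx'
    refine ⟨Or.inl ⟨rfl, hx⟩, fun j hj => ⟨?_, ?_⟩, fun j hj => ⟨?_, ?_⟩⟩
    · (try simp only); omega
    · (try simp only); omega
    · unfold PS; split_ifs <;> omega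
    · unfold PS; split_ifs <;> omega
  have sC : ∀ x, i ≤ x → x ≤ M → RT M K k (fun j => i - j) (PS k i) i x := by
    intro x h1 h2
    exact RT.seg h1 fun j h3 h4 => hpath j (by omega) h3
  have hsplit : ∀ x ≤ M, (∀ j, 0 < j → j < k → x ≠ i - j ∧ x ≠ PS k i j) →
      x = k - 1 ∨ i ≤ x := by
    intro x hx hn
    by_contra hcon
    push Not at hcon
    obtain ⟨h1, h2⟩ := hcon
    by_cases h3 : x < k - 1
    · refine (hn (k - 1 - x) (by omega) (by omega)).2 ?_
      unfold PS
      rw [if_neg (by omega)]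
      omega
    · exact (hn (i - x) (by omega) (by omega)).1 (by omega)
  refine core_pos μ hU hf hk (P1 := fun j => i - j) (P2 := PS k i)
    (fun j hj => by (try simp only); omega) (fun j hj => by unfold PS; split_ifs <;> omega)
    (fun j hj j' hj' h => by (try simp only at h); omega)
    (fun j hj j' hj' h => by unfold PS at h; split_ifs at h <;> omega)
    (fun j hj hj' j2 hj2 h => by (try simp only at h); unfold PS at h; split_ifs at h <;> omega)
    (fun j hj hj' j2 hj2 h => by (try simp only at h); unfold PS at h; split_ifs at h <;> omega)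
    (fun j hj => Or.inr (Or.inl ⟨by (try simp only); omega, by (try simp only); omega⟩)) ?_ ?_ ?_ ?_ ?_
  · intro j hj
    by_cases h1 : j + 1 = k
    · have e1 : PS k i j = 0 := by unfold PS; rw [if_neg (by omega)]; omega
      have e2 : PS k i (j + 1) = i := by unfold PS; rw [if_pos h1]
      rw [e1, e2]
      exact Or.inr (Or.inr (Or.inl h0))
    · have e1 : PS k i j = k - 1 - j := by unfold PS; rw [if_neg (by omega)]
      have e2 : PS k i (j + 1) = k - 1 - (j + 1) := by unfold PS; rw [if_neg h1]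
      rw [e1, e2]
      exact Or.inr (Or.inl ⟨by omega, by omega⟩)
  · intro j hj hj' y hy
    try simp only at hy ⊢
    have := hEd _ _ (by omega) hy
    omega
  · intro j hj hj' y hy
    have e1 : PS k i j = k - 1 - j := by unfold PS; rw [if_neg (by omega)]
    rw [e1] at hy
    have := hEd _ _ (by omega) hy
    by_cases h1 : j + 1 = k
    · have e2 : PS k i (j + 1) = i := by unfold PS; rw [if_pos h1]
      have e3 : PS k i (j - 1) = k - 1 - (j - 1) := by unfold PS; rw [if_neg (by omega)]
      rw [e2, e3]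
      omega
    · have e2 : PS k i (j + 1) = k - 1 - (j + 1) := by unfold PS; rw [if_neg h1]
      have e3 : PS k i (j - 1) = k - 1 - (j - 1) := by unfold PS; rw [if_neg (by omega)]
      rw [e2, e3]
      omega
  · intro x hx hn
    rcases hsplit x hx hn with h | h
    · right
      have : i - k = x := by omega
      rw [this]
    · left
      exact sC x h hx
  · intro x hx hn
    rcases hsplit x hx hn with h | h
    · left
      have : PS k i 0 = x := by unfold PS; rw [if_neg (by omega)]; omega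
      rw [this]
    · right
      have : PS k i k = i := by unfold PS; rw [if_pos rfl]
      rw [this]
      exact sC x h hx

end H738

/-- a cycle at the beginning -/
theorem cyc0 (hU : Ker μ U κ η) {f : ℕ → V} {M : ℕ} {K : Finset (ℕ × ℕ)} (hf : Pos f M K)
    {k i : ℕ} (hk : 2 ≤ k) (hi : 2 * k ≤ i + 1) (h0 : (0, i) ∈ K)
    (hK : ∀ c ∈ K, c ≠ (0, i) → i ≤ c.1) : Bd μ U κ f M K k := by
  have hiM : i ≤ M := (hf.ch _ h0).2
  by_cases h : 2 * k = i + 1
  · exact H738.cyc0_eq μ hU hf hk h h0 hK
  · refine seg2 μ hU hf (t1 := i - 2 * k) (t2 := i - k) hk (by omega) (by omega) ?_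
      ⟨_, h0, by simp, by (try simp only); omega⟩ ⟨_, h0, by (try simp only); omega, by (try simp only); omega⟩
    intro c hc x hx
    have h1 := hf.ch c hc
    by_cases he : c = (0, i)
    · subst he
      simp only at hx
      omega
    · have := hK c hc he
      omega

/-! ### reversal -/

/-- the reversed chords -/
def rK (M : ℕ) (K : Finset (ℕ × ℕ)) : Finset (ℕ × ℕ) := K.image (fun c => (M - c.2, M - c.1))

theorem Pos.rev {f : ℕ → V} {M : ℕ} {K : Finset (ℕ × ℕ)} (hf : Pos f M K) :
    Pos (fun i => f (M - i)) M (rK M K) := by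
  refine ⟨fun i hi j hj h => ?_, fun c hc => ?_⟩
  · have := hf.inj _ (by omega) _ (by omega) h
    omega
  · obtain ⟨c', hc', rfl⟩ := mem_image.mp hc
    have := hf.ch c' hc'
    simp only
    omega

theorem PE_rev {f : ℕ → V} {M : ℕ} {K : Finset (ℕ × ℕ)} (hf : Pos f M K) :
    PE (fun i => f (M - i)) M (rK M K) = PE f M K := by
  ext e
  rw [H738.mem_PE hf.rev, H738.mem_PE hf]
  constructor
  · rintro ⟨x, y, h, rfl⟩
    refine ⟨M - x, M - y, ?_, rfl⟩
    rcases h with h | h | h | h
    · exact Or.inr (Or.inl ⟨by omega, by omega⟩)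
    · exact Or.inl ⟨by omega, by omega⟩
    · obtain ⟨c, hc, he⟩ := mem_image.mp h
      have := hf.ch c hc
      rw [Prod.mk.injEq] at he
      refine Or.inr (Or.inr (Or.inr ?_))
      have e : (M - y, M - x) = c := by
        ext
        · (try simp only); omega
        · (try simp only); omega
      rw [e]; exact hc
    · obtain ⟨c, hc, he⟩ := mem_image.mp h
      have := hf.ch c hc
      rw [Prod.mk.injEq] at he
      refine Or.inr (Or.inr (Or.inl ?_))
      have e : (M - x, M - y) = c := by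
        ext
        · (try simp only); omega
        · (try simp only); omega
      rw [e]; exact hc
  · rintro ⟨x, y, h, rfl⟩
    have hl := H738.ed_le hf h
    refine ⟨M - x, M - y, ?_, ?_⟩
    · rcases h with h | h | h | h
      · exact Or.inr (Or.inl ⟨by omega, by omega⟩)
      · exact Or.inl ⟨by omega, by omega⟩
      · exact Or.inr (Or.inr (Or.inr (mem_image.mpr ⟨_, h, rfl⟩)))
      · exact Or.inr (Or.inr (Or.inl (mem_image.mpr ⟨_, h, rfl⟩)))
    · rw [show M - (M - x) = x by omega, show M - (M - y) = y by omega]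

theorem Bd.of_rev {f : ℕ → V} {M : ℕ} {K : Finset (ℕ × ℕ)} (hf : Pos f M K) {k : ℕ}
    (h : Bd μ U κ (fun i => f (M - i)) M (rK M K) k) : Bd μ U κ f M K k := by
  intro g hg hg1
  have := h g hg hg1
  rw [PE_rev hf] at this
  have e : ∀ z : V → Ω, ∏ i ∈ range (M + 1), g (f (M - i)) (z (f (M - i))) =
      ∏ i ∈ range (M + 1), g (f i) (z (f i)) := by
    intro z
    have := Finset.prod_range_reflect (fun i => g (f i) (z (f i))) (M + 1)
    rw [← this]
    refine prod_congr rfl fun i hi => ?_
    rw [mem_range] at hi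
    rw [show M + 1 - 1 - i = M - i by omega]
  simp only [e] at this
  exact this

/-- a cycle at the end -/
theorem cycM (hU : Ker μ U κ η) {f : ℕ → V} {M : ℕ} {K : Finset (ℕ × ℕ)} (hf : Pos f M K)
    {k s : ℕ} (hk : 2 ≤ k) (hs : s + 2 * k ≤ M + 1) (h0 : (s, M) ∈ K)
    (hK : ∀ c ∈ K, c ≠ (s, M) → c.2 ≤ s) : Bd μ U κ f M K k := by
  have hsM := hf.ch _ h0
  simp only at hsM
  refine Bd.of_rev μ hf (cyc0 μ hU hf.rev (i := M - s) hk (by omega) ?_ ?_)
  · exact mem_image.mpr ⟨_, h0, by simp⟩
  · intro c hc hne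
    obtain ⟨c', hc', rfl⟩ := mem_image.mp hc
    have h1 := hf.ch c' hc'
    have h2 : c' ≠ (s, M) := by
      rintro rfl
      exact hne (by simp)
    have := hK c' hc' h2
    simp only
    omega

/-- the theta graph with an arc of `k` edges through the first vertex -/
theorem H738.theta_eq (hU : Ker μ U κ η) {f : ℕ → V} {M : ℕ} {s i : ℕ}
    (hf : Pos f M {(0, i), (s, M)}) {k : ℕ} (hk : 2 ≤ k) (hsk : s + 1 = k) (hi : s + k ≤ i)
    (hiM : i < M) : Bd μ U κ f M {(0, i), (s, M)} k := by
  set K : Finset (ℕ × ℕ) := {(0, i), (s, M)} with hKdef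
  have hK : ∀ x y, (x, y) ∈ K ↔ (x = 0 ∧ y = i) ∨ (x = s ∧ y = M) := by
    intro x y
    rw [hKdef]
    simp only [mem_insert, mem_singleton, Prod.mk.injEq]
  have hEd : ∀ x y, Ed M K x y → x ≤ M ∧ y ≤ M ∧ (y + 1 = x ∨ x + 1 = y ∨ (x = 0 ∧ y = i) ∨
      (y = 0 ∧ x = i) ∨ (x = s ∧ y = M) ∨ (y = s ∧ x = M)) := by
    intro x y hy
    have hl := H738.ed_le hf hy
    refine ⟨hl.1, hl.2.1, ?_⟩
    rcases hy with hy | hy | hy | hy
    · omega
    · omega
    · rw [hK] at hy
      omega
    · rw [hK] at hy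
      omega
  have hsM : s + 2 ≤ M := (hf.ch (s, M) (by rw [hK]; omega)).1
  have hpath : ∀ x, x + 1 ≤ M → s + k ≤ x →
      H738.RE M K k (fun j => s + j) (H738.PS k i) x (x + 1) := by
    intro x hx hx'
    refine ⟨Or.inl ⟨rfl, hx⟩, fun j hj => ⟨?_, ?_⟩, fun j hj => ⟨?_, ?_⟩⟩
    · (try simp only); omega
    · (try simp only); omega
    · unfold H738.PS; split_ifs <;> omega
    · unfold H738.PS; split_ifs <;> omega
  have hch : H738.RE M K k (fun j => s + j) (H738.PS k i) s M := by
    refine ⟨Or.inr (Or.inr (Or.inl ((hK _ _).mpr (Or.inr ⟨rfl, rfl⟩)))), fun j hj => ⟨?_, ?_⟩,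
      fun j hj => ⟨?_, ?_⟩⟩
    · (try simp only); omega
    · (try simp only); omega
    · unfold H738.PS; split_ifs <;> omega
    · unfold H738.PS; split_ifs <;> omega
  have sC : ∀ x y, s + k ≤ x → x ≤ M → s + k ≤ y → y ≤ M →
      H738.RT M K k (fun j => s + j) (H738.PS k i) x y := by
    intro x y h1 h2 h3 h4
    rcases le_total x y with h | h
    · exact H738.RT.seg h fun j h5 h6 => hpath j (by omega) (by omega)
    · exact (H738.RT.seg h fun j h5 h6 => hpath j (by omega) (by omega)).symm
  have sS : ∀ y, s + k ≤ y → y ≤ M → H738.RT M K k (fun j => s + j) (H738.PS k i) s y := by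
    intro y h1 h2
    exact Relation.ReflTransGen.head hch (sC _ _ (by omega) le_rfl h1 h2)
  have hsplit : ∀ x ≤ M, (∀ j, 0 < j → j < k → x ≠ s + j ∧ x ≠ H738.PS k i j) →
      x = s ∨ s + k ≤ x := by
    intro x hx hn
    by_contra hcon
    push Not at hcon
    obtain ⟨h1, h2⟩ := hcon
    by_cases h3 : x < s
    · refine (hn (s - x) (by omega) (by omega)).2 ?_
      unfold H738.PS
      rw [if_neg (by omega)]
      omega
    · exact (hn (x - s) (by omega) (by omega)).1 (by omega)
  refine H738.core_pos μ hU hf hk (P1 := fun j => s + j) (P2 := H738.PS k i)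
    (fun j hj => by (try simp only); omega) (fun j hj => by unfold H738.PS; split_ifs <;> omega)
    (fun j hj j' hj' h => by (try simp only at h); omega)
    (fun j hj j' hj' h => by unfold H738.PS at h; split_ifs at h <;> omega)
    (fun j hj hj' j2 hj2 h => by (try simp only at h); unfold H738.PS at h; split_ifs at h <;> omega)
    (fun j hj hj' j2 hj2 h => by (try simp only at h); unfold H738.PS at h; split_ifs at h <;> omega)
    (fun j hj => Or.inl ⟨by (try simp only); omega, by (try simp only); omega⟩) ?_ ?_ ?_ ?_ ?_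
  · intro j hj
    by_cases h1 : j + 1 = k
    · have e1 : H738.PS k i j = 0 := by unfold H738.PS; rw [if_neg (by omega)]; omega
      have e2 : H738.PS k i (j + 1) = i := by unfold H738.PS; rw [if_pos h1]
      rw [e1, e2]
      exact Or.inr (Or.inr (Or.inl ((hK _ _).mpr (Or.inl ⟨rfl, rfl⟩))))
    · have e1 : H738.PS k i j = k - 1 - j := by unfold H738.PS; rw [if_neg (by omega)]
      have e2 : H738.PS k i (j + 1) = k - 1 - (j + 1) := by unfold H738.PS; rw [if_neg h1]
      rw [e1, e2]
      exact Or.inr (Or.inl ⟨by omega, by omega⟩)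
  · intro j hj hj' y hy
    try simp only at hy ⊢
    have := hEd _ _ hy
    omega
  · intro j hj hj' y hy
    have e1 : H738.PS k i j = k - 1 - j := by unfold H738.PS; rw [if_neg (by omega)]
    rw [e1] at hy
    have := hEd _ _ hy
    have e3 : H738.PS k i (j - 1) = k - 1 - (j - 1) := by unfold H738.PS; rw [if_neg (by omega)]
    by_cases h1 : j + 1 = k
    · have e2 : H738.PS k i (j + 1) = i := by unfold H738.PS; rw [if_pos h1]
      rw [e2, e3]
      omega
    · have e2 : H738.PS k i (j + 1) = k - 1 - (j + 1) := by unfold H738.PS; rw [if_neg h1]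
      rw [e2, e3]
      omega
  · intro x hx hn
    rcases hsplit x hx hn with h | h
    · left
      simp only [add_zero]
      rw [h]
    · right
      exact sC _ _ le_rfl (by omega) h hx
  · intro x hx hn
    have e0 : H738.PS k i 0 = s := by unfold H738.PS; rw [if_neg (by omega)]; omega
    left
    rw [e0]
    rcases hsplit x hx hn with h | h
    · rw [h]
    · exact sS x h hx

/-- theta graph, the arc through the first vertex is not shorter than the one through the last
vertex -/
theorem H738.theta_aux (hU : Ker μ U κ η) {f : ℕ → V} {M : ℕ} {s i : ℕ}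
    (hf : Pos f M {(0, i), (s, M)}) {k : ℕ} (hk : 2 ≤ k) (hsi : s < i) (hiM : i ≤ M)
    (g3 : 2 * k ≤ i + 1) (g1 : s + 2 * k ≤ M + 1) (g4 : 2 * k + i ≤ s + M + 2)
    (hlong : M ≤ s + i) :
    Bd μ U κ f M {(0, i), (s, M)} k := by
  have hK : ∀ c ∈ ({(0, i), (s, M)} : Finset (ℕ × ℕ)), ∀ x, (x = c.1 ∨ x = c.2) →
      x = 0 ∨ x = i ∨ x = s ∨ x = M := by
    intro c hc x hx
    simp only [mem_insert, mem_singleton] at hc
    rcases hc with rfl | rfl
    · simp only at hx; omega
    · simp only at hx; omega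
  have m1 : ((0, i) : ℕ × ℕ) ∈ ({(0, i), (s, M)} : Finset (ℕ × ℕ)) := by simp
  have m2 : ((s, M) : ℕ × ℕ) ∈ ({(0, i), (s, M)} : Finset (ℕ × ℕ)) := by simp
  by_cases h1 : s + k ≤ i
  · by_cases h2 : k ≤ s
    · refine seg2 μ hU hf (t1 := 0) (t2 := s) hk (by omega) (by omega) ?_
        ⟨_, m1, by simp, by (try simp only); omega⟩ ⟨_, m2, by (try simp only); omega, by (try simp only); omega⟩
      intro c hc x hx
      have := hK c hc x hx
      omega
    · exact H738.theta_eq μ hU hf hk (by omega) h1 (by omega)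
  · refine seg2 μ hU hf (t1 := 0) (t2 := M - k) hk (by omega) (by omega) ?_
      ⟨_, m1, by simp, by (try simp only); omega⟩ ⟨_, m2, by (try simp only); omega, by (try simp only); omega⟩
    intro c hc x hx
    have := hK c hc x hx
    omega

/-- the theta graph -/
theorem theta (hU : Ker μ U κ η) {f : ℕ → V} {M : ℕ} {s i : ℕ}
    (hf : Pos f M {(0, i), (s, M)}) {k : ℕ} (hk : 2 ≤ k) (hsi : s < i) (hiM : i < M)
    (g3 : 2 * k ≤ i + 1) (g1 : s + 2 * k ≤ M + 1) (g4 : 2 * k + i ≤ s + M + 2) :
    Bd μ U κ f M {(0, i), (s, M)} k := by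
  rcases le_total M (s + i) with h | h
  · exact H738.theta_aux μ hU hf hk hsi hiM.le g3 g1 g4 h
  · have hr : rK M {(0, i), (s, M)} = {(0, M - s), (M - i, M)} := by
      unfold rK
      rw [image_insert, image_singleton]
      simp only [tsub_zero, tsub_self]
      rw [pair_comm]
    refine Bd.of_rev μ hf ?_
    have hp := hf.rev
    rw [hr] at hp ⊢
    exact H738.theta_aux μ hU hp hk (by omega) (by omega) (by omega) (by omega) (by omega)
      (by omega)

end Vale.Agent.P050.Opt
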